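import Vale.Agent.P073Y.Pw.Sk

/-!
# The cube trick and the holes of the homeomorphisms
-/

open Set Metric Topology Filter MeasureTheory
open scoped ENNReal NNReal

namespace P073.Pw

theorem hole : HOLE := by
  intro Λ U Φ₀ Φ K s D r c β hK hs hΦ hD hr hsD H y hy
  have hs0 := hs.1
  have hs1 := hs.2
  have hKs : 1 ≤ (1 - s) * K + s := by nlinarith
  set Ks := (1 - s) * K + s with hKsdef
  have hKs0 : 0 < Ks := by linarith
  have hK0 : 0 < K := by linarith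
  have hyβ : ‖y - β‖ ≤ D := (H y (closedBall_subset_closedBall (by linarith) hy)).2.2
  have hz : β + (K / Ks) • (y - β) ∈ closedBall c r := by
    have e : β + (K / Ks) • (y - β) - y = (s * (K - 1) / Ks) • (y - β) := by
      have : s * (K - 1) / Ks = K / Ks - 1 := by
        field_simp; rw [hKsdef]; ring
      rw [this, sub_smul, one_smul]; abel
    have h1 : ‖β + (K / Ks) • (y - β) - y‖ ≤ r / 2 := by
      have h0 : 0 ≤ s * (K - 1) := mul_nonneg hs0.le (by linarith)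
      rw [e, norm_smul, Real.norm_of_nonneg (div_nonneg h0 hKs0.le)]
      have h2 : s * (K - 1) / Ks ≤ s * K := (div_le_self h0 hKs).trans (by nlinarith)
      calc _ ≤ s * K * D := mul_le_mul h2 hyβ (norm_nonneg _) (by positivity)
        _ ≤ r / 2 := by linarith
    rw [mem_closedBall] at hy ⊢
    rw [← dist_eq_norm] at h1
    linarith [dist_triangle (β + (K / Ks) • (y - β)) y c]
  obtain ⟨h1, h2, -⟩ := H _ hz
  have e : β + K⁻¹ • (β + (K / Ks) • (y - β) - β) = β + Ks⁻¹ • (y - β) := by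
    rw [add_sub_cancel_left, smul_smul]
    congr 2
    field_simp
  rw [e] at h1 h2
  have h3 : Φ.toFun (β + Ks⁻¹ • (y - β)) = y := by
    rw [hΦ, h2]
    have h4 : (1 - s) * (K / Ks) + s * Ks⁻¹ = 1 := by
      field_simp; rw [hKsdef]
    calc _ = β + ((1 - s) * (K / Ks) + s * Ks⁻¹) • (y - β) := by module
      _ = y := by rw [h4, one_smul]; abel
  have h5 : Φ.invFun y = β + Ks⁻¹ • (y - β) := by
    conv_lhs => rw [← h3]
    exact Φ.left_inv h1.1
  exact ⟨h3 ▸ Φ.mapsTo h1.1, h5, h5 ▸ h1⟩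

/-- the norm of the linear part -/
noncomputable def nrm (ℓ : E3 →ᵃ[ℝ] ℝ) : ℝ := ‖LinearMap.toContinuousLinearMap ℓ.linear‖

theorem nrm_nonneg (ℓ : E3 →ᵃ[ℝ] ℝ) : 0 ≤ nrm ℓ := norm_nonneg _

theorem nrm_pos {ℓ : E3 →ᵃ[ℝ] ℝ} (h : ℓ.linear ≠ 0) : 0 < nrm ℓ :=
  norm_pos_iff.2 fun h0 => h ((LinearEquiv.map_eq_zero_iff _).1 h0)

theorem abs_sub_le_nrm (ℓ : E3 →ᵃ[ℝ] ℝ) (x y : E3) : |ℓ x - ℓ y| ≤ nrm ℓ * ‖x - y‖ := by
  have e : ℓ x - ℓ y = ℓ.linear (x - y) := (ℓ.linearMap_vsub x y).symm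
  rw [e, ← Real.norm_eq_abs]
  exact (LinearMap.toContinuousLinearMap ℓ.linear).le_opNorm _

theorem exists_far {ℓ : E3 →ᵃ[ℝ] ℝ} (h : ℓ.linear ≠ 0) (x : E3) {r : ℝ} (hr : 0 < r) :
    ∃ x₁ ∈ closedBall x r, ∀ y ∈ closedBall x₁ (3 / 4 * r), ℓ y ≠ 0 := by
  have hn := nrm_pos h
  obtain ⟨v, hv, hv'⟩ := (LinearMap.toContinuousLinearMap ℓ.linear).exists_lt_apply_of_lt_opNorm
    (r := 7 / 8 * nrm ℓ) (by change _ < nrm ℓ; linarith)
  have hv'' : 7 / 8 * nrm ℓ < |ℓ.linear v| := hv'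
  have key : ∀ w : E3, ‖w‖ < 1 → r * (7 / 8 * nrm ℓ) ≤ |ℓ (x + r • w)| →
      ∃ x₁ ∈ closedBall x r, ∀ y ∈ closedBall x₁ (3 / 4 * r), ℓ y ≠ 0 := by
    intro w hw hle
    refine ⟨x + r • w, ?_, fun y hy h0 => ?_⟩
    · rw [mem_closedBall_iff_norm, add_sub_cancel_left, norm_smul, Real.norm_of_nonneg hr.le]
      nlinarith
    · have h1 := abs_sub_le_nrm ℓ y (x + r • w)
      rw [h0, zero_sub, abs_neg] at h1
      have h2 := mul_le_mul_of_nonneg_left (mem_closedBall_iff_norm.1 hy) hn.le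
      nlinarith
  have ev : ∀ w : E3, ℓ (x + r • w) = ℓ x + r * ℓ.linear w := fun w => by
    have := ℓ.map_vadd x (r • w)
    rw [vadd_eq_add, vadd_eq_add, map_smul, smul_eq_mul] at this
    rw [add_comm, this, add_comm]
  have hb : r * (7 / 8 * nrm ℓ) ≤ |r * ℓ.linear v| := by
    rw [abs_mul, abs_of_pos hr]
    exact mul_le_mul_of_nonneg_left hv''.le hr.le
  rcases le_total |ℓ x - r * ℓ.linear v| |ℓ x + r * ℓ.linear v| with h1 | h1
  · refine key v hv ?_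
    rw [ev]
    have := abs_sub (ℓ x + r * ℓ.linear v) (ℓ x - r * ℓ.linear v)
    rw [show ℓ x + r * ℓ.linear v - (ℓ x - r * ℓ.linear v) = 2 * (r * ℓ.linear v) by ring, abs_mul,
      abs_two] at this
    linarith
  · refine key (-v) (by rwa [norm_neg]) ?_
    rw [ev, map_neg, mul_neg, ← sub_eq_add_neg]
    have := abs_sub (ℓ x + r * ℓ.linear v) (ℓ x - r * ℓ.linear v)
    rw [show ℓ x + r * ℓ.linear v - (ℓ x - r * ℓ.linear v) = 2 * (r * ℓ.linear v) by ring, abs_mul,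
      abs_two] at this
    linarith

theorem exists_avoid (L : Finset (E3 →ᵃ[ℝ] ℝ)) (hL : ∀ ℓ ∈ L, ℓ.linear ≠ 0) :
    ∃ a : ℝ, 0 < a ∧ a ≤ 1 ∧ ∀ (x : E3) (e : ℝ), 0 < e → ∃ c ∈ closedBall x e,
      closedBall c (a * e) ⊆ closedBall x e ∧ ∀ ℓ ∈ L, ∀ z ∈ closedBall c (a * e), ℓ z ≠ 0 := by
  classical
  induction L using Finset.induction_on with
  | empty =>
    exact ⟨1, one_pos, le_rfl, fun x e he => ⟨x, mem_closedBall_self he.le, by rw [one_mul],
      fun ℓ h => absurd h (Finset.notMem_empty _)⟩⟩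
  | insert ℓ₀ L _ ih =>
    obtain ⟨a, a0, a1, H⟩ := ih fun ℓ h => hL ℓ (Finset.mem_insert_of_mem h)
    refine ⟨a / 4, by positivity, by linarith, fun x e he => ?_⟩
    obtain ⟨x₁, h1, h2⟩ := exists_far (hL ℓ₀ (Finset.mem_insert_self _ _)) x (half_pos he)
    obtain ⟨c, h3, h4, h5⟩ := H x₁ (e / 4) (by positivity)
    have hsub : closedBall x₁ (e / 4) ⊆ closedBall x e :=
      closedBall_subset_closedBall' (by rw [mem_closedBall] at h1; linarith)
    rw [show a / 4 * e = a * (e / 4) by ring]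
    refine ⟨c, hsub h3, h4.trans hsub, fun ℓ h z hz => ?_⟩
    rcases Finset.mem_insert.1 h with rfl | h
    · exact h2 z (closedBall_subset_closedBall (by linarith) (h4 hz))
    · exact h5 ℓ h z hz

theorem cube : CUBE := by
  intro L hL
  obtain ⟨a, a0, a1, H⟩ := exists_avoid L hL
  refine ⟨a / 16, fun e => ⋃ ℓ ∈ L, {y | ℓ y ≠ 0 ∧ |ℓ y| ≤ nrm ℓ * (3 * e)}, by positivity,
    by linarith, fun e e' h => ?_, fun e => ?_, fun y => ?_, fun x e he => ?_⟩
  · exact iUnion₂_mono fun ℓ _ y hy => ⟨hy.1, hy.2.trans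
      (mul_le_mul_of_nonneg_left (by linarith) (nrm_nonneg ℓ))⟩
  · refine L.measurableSet_biUnion fun ℓ _ => ?_
    have hc : Continuous ℓ := ℓ.continuous_of_finiteDimensional
    exact (isOpen_ne_fun hc continuous_const).measurableSet.inter
      (isClosed_le hc.abs continuous_const).measurableSet
  · have h1 : ∀ ℓ ∈ L, ∀ᶠ e in 𝓝[>] (0:ℝ), ¬ (ℓ y ≠ 0 ∧ |ℓ y| ≤ nrm ℓ * (3 * e)) := by
      intro ℓ _
      by_cases h0 : ℓ y = 0
      · exact Eventually.of_forall fun e h => h.1 h0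
      · have hc : Continuous fun e : ℝ => nrm ℓ * (3 * e) := by fun_prop
        have := hc.continuousAt (x := 0).eventually (gt_mem_nhds (a := |ℓ y|)
          (by simpa using h0))
        filter_upwards [mem_nhdsWithin_of_mem_nhds this] with e h h'
        exact absurd h'.2 (not_le.2 h)
    obtain ⟨e, h2, h3⟩ := (((eventually_all_finset L).2 h1).and self_mem_nhdsWithin).exists
    refine ⟨e, h3, fun h => ?_⟩
    obtain ⟨ℓ, hℓ, h⟩ := mem_iUnion₂.1 h
    exact h2 ℓ hℓ h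
  · rintro ⟨ℓ₀, h0, z₀, hz₀, hz⟩
    obtain ⟨x₁, h1, h2⟩ := exists_far (hL ℓ₀ h0) x (r := e / 4) (by positivity)
    obtain ⟨c, h3, -, h5⟩ := H x₁ (e / 16) (by positivity)
    rw [mem_closedBall] at h1 h3 hz₀
    refine ⟨c, ?_, fun y hy => mem_iUnion₂.2 ⟨ℓ₀, h0, ?_, ?_⟩, ?_⟩
    · rw [mem_closedBall]
      linarith [dist_triangle c x₁ x]
    · rw [mem_closedBall] at hy
      exact h2 y (mem_closedBall.2 (by linarith [dist_triangle y c x₁]))
    · rw [mem_closedBall] at hy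
      have h6 := abs_sub_le_nrm ℓ₀ y z₀
      rw [hz, sub_zero, ← dist_eq_norm] at h6
      refine h6.trans (mul_le_mul_of_nonneg_left ?_ (nrm_nonneg _))
      linarith [dist_triangle4 y c x₁ x, dist_triangle y x z₀, dist_comm z₀ x]
    · rwa [show a / 16 * e = a * (e / 16) by ring]

end P073.Pw
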