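import Vale.Agent.P073Y.Pw.Sk

/-!
# The Euclidean form of the power collapse
-/

open Set Metric Topology Filter

namespace P073.Pw

variable {F : Type} [NormedAddCommGroup F] [InnerProductSpace ℝ F]

/-- the difference of two power distances -/
noncomputable def bis (τ : F → ℝ) (β β' : F) : F →ᵃ[ℝ] ℝ :=
  ((-2 : ℝ) • (innerSL ℝ (β - β')).toLinearMap).toAffineMap +
    AffineMap.const ℝ F (‖β‖ ^ 2 - ‖β'‖ ^ 2 + τ β - τ β')

theorem bis_apply (τ : F → ℝ) (β β' w : F) : bis τ β β' w = pw τ β w - pw τ β' w := by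
  simp only [bis, pw, norm_sub_sq_real, real_inner_comm β w, real_inner_comm β' w]
  simp
  ring

theorem bis_linear (τ : F → ℝ) {β β' : F} (h : β ≠ β') : (bis τ β β').linear ≠ 0 := fun e => by
  have h1 := LinearMap.congr_fun e (β - β')
  have h2 : (bis τ β β').linear (β - β') = -2 * inner ℝ (β - β') (β - β') := by
    rw [inner_sub_left]
    simp [bis]
  rw [h2, LinearMap.zero_apply, mul_eq_zero, inner_self_eq_zero, sub_eq_zero] at h1
  exact h1.elim (by norm_num) h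

theorem pw6_of (h2 : PW2) (h4 : PW4) : PW6 := by
  classical
  intro F _ _ _ Λ S U τ θ K hD hK hU hA
  obtain ⟨Z, z1, z2, z3, z4, z5, z6, z7⟩ := h4 hD hK
  have h2 := h2 hD
  have K0 : 0 < K := by linarith
  have Ki : K⁻¹ < 1 := inv_lt_one_of_one_lt₀ hK
  have Kp : 0 < K⁻¹ := inv_pos.2 K0
  have single : ∀ z ∈ Λ, (act S τ z).Subsingleton → ∃ β, act S τ z = {β} := fun z hz h =>
    (h2 z hz).1.imp fun β hβ => h.eq_singleton_of_mem hβ
  have hull : ∀ y ∈ Λ, ∃ q ∈ convexHull ℝ (act S τ (Z y)), K⁻¹ • Z y + (1 - K⁻¹) • q = y := by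
    intro y hy
    obtain ⟨q, h | h, e⟩ := z1 y
    exacts [⟨q, h.2, e⟩, (h.1 (z5 hy)).elim]
  have hUP : MapsTo Z U {z ∈ Λ | ¬ (act S τ z).Subsingleton} := by
    intro y hy
    refine ⟨z5 (hU hy), fun h => ?_⟩
    obtain ⟨β, hβ⟩ := single _ (z5 (hU hy)) h
    obtain ⟨q, hq, e⟩ := hull y (hU hy)
    rw [hβ, convexHull_singleton, mem_singleton_iff] at hq
    subst hq
    obtain ⟨-, -, a1, -, ε, hε, a2⟩ := h2 _ (z5 (hU hy))
    have a3 : q ∈ act S τ (Z y) := hβ ▸ mem_singleton q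
    have a4 : q + K • (y - q) = Z y := by
      conv_lhs => rw [← e]
      rw [smul_sub, smul_add, smul_smul, smul_smul, mul_inv_cancel₀ K0.ne', mul_sub,
        mul_inv_cancel₀ K0.ne']
      module
    have a5 : 0 < dc Λ (Z y) :=
      (hD.isOpen.isClosed_compl.notMem_iff_infDist_pos hD.ne).1 (not_not.2 (z5 (hU hy)))
    have a6 := hA q a3.1 y hy (min ε (dc Λ (Z y) ^ 2 / 2)) (lt_min hε (by positivity))
    rw [a4] at a6
    rcases a6 with a6 | ⟨β', b1, b2, b3⟩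
    · have a7 := (a1 q a3).1
      have a8 : (θ * dc Λ (Z y)) ^ 2 ≤ (1 / 4 * dc Λ (Z y)) ^ 2 :=
        pow_le_pow_left₀ (mul_nonneg hD.pos.le a5.le) (mul_le_mul_of_nonneg_right hD.le a5.le) 2
      nlinarith [min_le_right ε (dc Λ (Z y) ^ 2 / 2), sq_nonneg (dc Λ (Z y))]
    · have a7 := a2 q a3 β' b1 (by rwa [hβ])
      linarith [min_le_left ε (dc Λ (Z y) ^ 2 / 2)]
  refine ⟨{z ∈ Λ | ¬ (act S τ z).Subsingleton}, Z, fun z hz => hz.1, fun x hx hx' => ?_, z6, z5,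
    hUP, z3, fun x hx => ?_, z4, fun C hC hCΛ => ?_, z7, fun O hO hOΛ => ?_⟩
  · obtain ⟨w, w1, w2⟩ := mem_closure_iff_nhds.1 hx' _ (h2 x hx).2.2.2.1
    exact ⟨hx, fun h => w2.2 (h.anti w1)⟩
  · obtain ⟨q, hq, e⟩ := hull x hx
    have a1 : q ∈ closedBall (Z x) (θ * dc Λ (Z x)) :=
      convexHull_min (fun β hβ => by
        rw [mem_closedBall, dist_comm, dist_eq_norm]
        exact ((h2 _ (z5 hx)).2.2.1 β hβ).2) (convex_closedBall _ _) hq
    rw [mem_closedBall, dist_comm, dist_eq_norm] at a1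
    have a2 : Z x - x = (1 - K⁻¹) • (Z x - q) := by
      conv_lhs => rw [← congrArg (Z x - ·) e]
      module
    have a3 : ‖Z x - x‖ ≤ θ * dc Λ (Z x) := by
      rw [a2, norm_smul, Real.norm_of_nonneg (by linarith)]
      nlinarith [norm_nonneg (Z x - q)]
    have a4 : dc Λ (Z x) ≤ dc Λ x + ‖Z x - x‖ := by
      rw [← dist_eq_norm]
      exact infDist_le_infDist_add_dist
    have a5 : 0 ≤ dc Λ (Z x) := infDist_nonneg
    have a6 := mul_le_mul_of_nonneg_right hD.le a5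
    have a7 : dc Λ (Z x) ≤ 2 * dc Λ x := by linarith
    nlinarith [mul_le_mul_of_nonneg_left a7 hD.pos.le]
  · obtain ⟨t, t1, t2⟩ := hC.elim_nhds_subcover (fun z => {w | act S τ w ⊆ act S τ z})
      fun z hz => (h2 z (hCΛ hz)).2.2.2.1
    have hT : (⋃ z ∈ t, act S τ z).Finite :=
      t.finite_toSet.biUnion fun z hz => (h2 z (hCΛ (t1 z hz))).2.1
    refine ⟨(hT.toFinset.offDiag).image fun b => bis τ b.1 b.2, fun ℓ hℓ => ?_, fun z hz => ?_⟩
    · obtain ⟨b, hb, rfl⟩ := Finset.mem_image.1 hℓ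
      exact bis_linear τ (Finset.mem_offDiag.1 hb).2.2
    · obtain ⟨β, b1, β', b2, b3⟩ := not_subsingleton_iff.1 hz.1.2
      obtain ⟨y, y1, y2⟩ := mem_iUnion₂.1 (t2 hz.2)
      refine ⟨bis τ β β', Finset.mem_image.2 ⟨(β, β'), Finset.mem_offDiag.2 ⟨?_, ?_, b3⟩, rfl⟩, ?_⟩
      · exact hT.mem_toFinset.2 (mem_iUnion₂.2 ⟨y, y1, y2 b1⟩)
      · exact hT.mem_toFinset.2 (mem_iUnion₂.2 ⟨y, y1, y2 b2⟩)
      · rw [bis_apply, sub_eq_zero]
        exact le_antisymm (b1.2 β' b2.1) (b2.2 β b1.1)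
  · have sub : ∀ z ∈ O, (act S τ z).Subsingleton := fun z hz =>
      not_not.1 fun h => (hOΛ hz).2 ⟨(hOΛ hz).1, h⟩
    rcases O.eq_empty_or_nonempty with rfl | ⟨z₀, hz₀⟩
    · exact ⟨0, fun z hz => hz.elim⟩
    obtain ⟨β, hβ⟩ := single z₀ (hOΛ hz₀).1 (sub z₀ hz₀)
    refine ⟨β, fun z hz => ?_⟩
    have a1 : act S τ z₀ = act S τ z := by
      refine hO.induction₂ (fun x y => act S τ x = act S τ y) (fun x hx => ?_)
        (fun _ _ _ _ _ _ e e' => e.trans e') (fun _ _ _ _ e => e.symm) hz₀ hz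
      filter_upwards [mem_nhdsWithin_of_mem_nhds (h2 x (hOΛ hx).1).2.2.2.1, self_mem_nhdsWithin]
        with w w1 w2
      obtain ⟨b, hb⟩ := (h2 w (hOΛ w2).1).1
      rw [(sub x hx).eq_singleton_of_mem (w1 hb), (sub w w2).eq_singleton_of_mem hb]
    have a2 : β ∈ act S τ z := a1 ▸ hβ ▸ mem_singleton β
    have a3 : Z (β + K⁻¹ • (z - β)) = z := by
      rw [← z2 z β (Or.inl ⟨(hOΛ hz).1, subset_convexHull ℝ _ a2⟩)]
      congr 1
      rw [z2 z β (Or.inl ⟨(hOΛ hz).1, subset_convexHull ℝ _ a2⟩)]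
      module
    refine ⟨⟨by_contra fun h => h ?_, fun h => (hOΛ hz).2 (a3 ▸ hUP h)⟩, a3,
      ((h2 z (hOΛ hz).1).2.2.1 β a2).2⟩
    rw [← z4 _ h, a3]
    exact (hOΛ hz).1

end P073.Pw
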