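import Vale.Agent.P073Y.Pw.Sk

/-!
# Power collapse: transfer from the Euclidean space to the space with the sup norm
-/

open Set Metric Topology Filter MeasureTheory
open scoped ENNReal NNReal Pointwise

namespace P073.Pw

/-- the identification of the Euclidean space with `E3` -/
noncomputable def eqv : EuclideanSpace ℝ (Fin 3) ≃L[ℝ] E3 := EuclideanSpace.equiv (Fin 3) ℝ

theorem eqv_apply (x : EuclideanSpace ℝ (Fin 3)) (i : Fin 3) : eqv x i = x i := rfl

theorem eu_eqv (x : EuclideanSpace ℝ (Fin 3)) : eu (eqv x) = ‖x‖ := by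
  rw [EuclideanSpace.norm_eq]
  simp only [eu, eqv_apply, Real.norm_eq_abs, sq_abs]

theorem norm_eqv_le (x : EuclideanSpace ℝ (Fin 3)) : ‖eqv x‖ ≤ ‖x‖ :=
  (pi_norm_le_iff_of_nonneg (norm_nonneg _)).2 fun i => PiLp.norm_apply_le x i

theorem norm_le_eqv (x : EuclideanSpace ℝ (Fin 3)) : ‖x‖ ≤ 2 * ‖eqv x‖ := by
  have h : ∀ i, x i ^ 2 ≤ ‖eqv x‖ ^ 2 := fun i => by
    rw [← sq_abs]
    exact pow_le_pow_left₀ (abs_nonneg _) (norm_le_pi_norm (eqv x) i) 2
  have h1 := EuclideanSpace.real_norm_sq_eq x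
  rw [Fin.sum_univ_three] at h1
  refine abs_le_of_sq_le_sq' ?_ (by positivity) |>.2
  nlinarith [h 0, h 1, h 2, sq_nonneg ‖eqv x‖]

theorem dc_eqv {Λ : Set E3} (hne : Λᶜ.Nonempty) (x : EuclideanSpace ℝ (Fin 3)) :
    dc Λ (eqv x) ≤ dc (eqv ⁻¹' Λ) x ∧ dc (eqv ⁻¹' Λ) x ≤ 2 * dc Λ (eqv x) := by
  have hne' : (eqv ⁻¹' Λ)ᶜ.Nonempty := by
    obtain ⟨z, hz⟩ := hne
    exact ⟨eqv.symm z, by simpa using hz⟩
  unfold dc
  constructor
  · refine (le_infDist hne').2 fun y hy => (infDist_le_dist_of_mem (y := eqv y) hy).trans ?_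
    rw [dist_eq_norm, dist_eq_norm, ← map_sub]
    exact norm_eqv_le _
  · have : infDist x (eqv ⁻¹' Λ)ᶜ / 2 ≤ infDist (eqv x) Λᶜ := by
      refine (le_infDist hne).2 fun z hz => ?_
      have h1 : infDist x (eqv ⁻¹' Λ)ᶜ ≤ dist x (eqv.symm z) :=
        infDist_le_dist_of_mem (by simpa using hz)
      have h2 := norm_le_eqv (x - eqv.symm z)
      rw [map_sub, eqv.apply_symm_apply, ← dist_eq_norm, ← dist_eq_norm] at h2
      linarith
    linarith

theorem volume_eqv (A : Set E3) : volume (eqv ⁻¹' A) ≤ volume A := by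
  have h := PiLp.volume_preserving_ofLp (Fin 3)
  have h1 := Measure.le_map_apply (μ := (volume : Measure (EuclideanSpace ℝ (Fin 3))))
    h.measurable.aemeasurable A
  rw [h.map_eq] at h1
  exact h1

theorem closedIn_preimage {S T : Type} [TopologicalSpace S] [TopologicalSpace T] {f : S → T}
    (hf : Continuous f) {X V : Set T} (h : ClosedIn X V) : ClosedIn (f ⁻¹' X) (f ⁻¹' V) :=
  fun x hx hc => h (f x) hx (hf.closure_preimage_subset X hc)

/-- the identification as a conical homeomorphism -/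
noncomputable def eqvCon {Λ : Set E3} (hΛ : IsOpen Λ) : ConHomeo (eqv ⁻¹' Λ) Λ where
  toFun := eqv
  invFun := eqv.symm
  mapsTo := fun _ hx => hx
  mapsTo_inv := fun x hx => by simpa using hx
  left_inv := fun x _ => eqv.symm_apply_apply x
  right_inv := fun x _ => eqv.apply_symm_apply x
  cont := eqv.continuous.continuousOn
  cont_inv := eqv.symm.continuous.continuousOn
  conical := conicalOn_linear eqv.toLinearEquiv.toLinearMap
    (IsOpen.conicalSet (hΛ.preimage eqv.continuous))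

theorem power_of (h1 : PW1) (h5 : PW5) (h6 : PW6) : POWER := by
  obtain ⟨c, hc, h5⟩ := h5
  refine ⟨c / 64, by positivity, fun Λ U K θ hΛ hb hU hcl hK hK2 hθ hθ4 hvol => ?_⟩
  have hne : Λᶜ.Nonempty := by
    rw [nonempty_compl]
    rintro rfl
    exact NormedSpace.unbounded_univ ℝ E3 hb
  have hne' : (eqv ⁻¹' Λ)ᶜ.Nonempty := by
    obtain ⟨z, hz⟩ := hne
    exact ⟨eqv.symm z, by simpa using hz⟩
  have hΛ' : IsOpen (eqv ⁻¹' Λ) := hΛ.preimage eqv.continuous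
  have hb' : Bornology.IsBounded (eqv ⁻¹' Λ) := eqv.antilipschitz.isBounded_preimage hb
  have hU' : eqv ⁻¹' U ⊆ eqv ⁻¹' Λ := preimage_mono hU
  have hcl' : ClosedIn (eqv ⁻¹' U) (eqv ⁻¹' Λ) := closedIn_preimage eqv.continuous hcl
  have hK0 : 0 < K := by linarith
  have hKi : K⁻¹ < 1 := inv_lt_one_of_one_lt₀ hK
  have hKi0 : 0 < K⁻¹ := inv_pos.2 hK0
  have hκ : K - 1 ≤ 2 * (1 - K⁻¹) := by
    have e : K * K⁻¹ = 1 := mul_inv_cancel₀ hK0.ne'
    nlinarith
  obtain ⟨S, hS, hfin, hpack⟩ := h5 (eqv ⁻¹' Λ) (eqv ⁻¹' U) (1 - K⁻¹) (θ / 4) hΛ' hb' hU' hcl'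
    (by linarith) (by linarith) (by linarith) (by linarith) (fun t ht => by
      have hsub : eqv ⁻¹' U ∩ {y | t ≤ dc (eqv ⁻¹' Λ) y ∧ dc (eqv ⁻¹' Λ) y ≤ 48 * t} ⊆
          eqv ⁻¹' (U ∩ {y | t / 2 ≤ dc Λ y ∧ dc Λ y ≤ 256 * (t / 2)}) := by
        rintro y ⟨hy, g1, g2⟩
        obtain ⟨d1, d2⟩ := dc_eqv hne y
        exact ⟨hy, by linarith, by linarith⟩
      refine (measure_mono hsub).trans ((volume_eqv _).trans ((hvol _ (half_pos ht)).trans
        (ENNReal.ofReal_le_ofReal ?_)))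
      have g1 : (K - 1) * θ * (t / 2) ≤ 4 * ((1 - K⁻¹) * (θ / 4) * t) := by
        have := mul_le_mul_of_nonneg_right hκ (by positivity : 0 ≤ θ * t)
        linarith
      have g2 := pow_le_pow_left₀ (by
        have : 0 < K - 1 := by linarith
        positivity) g1 3
      have g3 := mul_le_mul_of_nonneg_left g2 (by positivity : 0 ≤ c / 64)
      linarith)
  obtain ⟨τ, hτ, hadm, hdense⟩ := h1 (eqv ⁻¹' Λ) S (eqv ⁻¹' U) K (θ / 4) hΛ' hb' hne' hS hU' hcl'
    hK hK2 (by linarith) (by linarith) hpack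
  obtain ⟨P, Φ, p1, p2, p3, p4, p5, p6, p7, p8, p9, p10, p11⟩ :=
    h6 ⟨hΛ', hne', hS, hfin, hτ, by linarith, by linarith, hdense⟩ hK hU' hadm
  have hcont : Continuous Φ := by
    refine (LipschitzWith.of_dist_le_mul (K := ⟨K, hK0.le⟩) fun x y => ?_).continuous
    rw [dist_eq_norm, dist_eq_norm]
    exact p6 x y
  have back : ∀ {A : Set E3} {x : E3}, x ∈ A → eqv.symm x ∈ eqv ⁻¹' A := fun hx => by
    simpa using hx
  have dcn : ∀ x, 0 ≤ dc Λ x := fun x => infDist_nonneg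
  have dcb : ∀ x, dc (eqv ⁻¹' Λ) (eqv.symm x) ≤ 2 * dc Λ x := fun x => by
    have := (dc_eqv hne (eqv.symm x)).2
    rwa [eqv.apply_symm_apply] at this
  refine ⟨eqv.symm ⁻¹' P, fun x => eqv (Φ (eqv.symm x)), fun x hx => ?_, fun x hx hx' => ?_,
    ⟨(eqv.continuous.comp (hcont.comp eqv.symm.continuous)).continuousOn, ?_⟩,
    fun x hx => p4 (back hx), fun x hx => ?_, fun x y => ?_, fun x hx => ?_, fun x hx => ?_,
    fun Z hZ hZΛ => ?_, fun s hs => ?_, fun O hO hOΛ => ?_⟩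
  · simpa using p1 hx
  · exact p2 _ (back hx) (eqv.symm.continuous.closure_preimage_subset P hx')
  · exact (p3.comp (eqvCon hΛ).conical_inv (eqvCon hΛ).mapsTo_inv
      (eqvCon hΛ).cont_inv).linear_comp eqv.toLinearEquiv.toLinearMap
  · simpa using p5 (back hx)
  · have := p6 (eqv.symm x) (eqv.symm y)
    rwa [← eu_eqv, ← eu_eqv, map_sub, map_sub, eqv.apply_symm_apply, eqv.apply_symm_apply] at this
  · have g1 := norm_eqv_le (Φ (eqv.symm x) - eqv.symm x)
    rw [map_sub, eqv.apply_symm_apply] at g1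
    have g2 := p7 _ (back hx)
    have g3 := mul_le_mul_of_nonneg_left (dcb x) hθ.le
    linarith
  · show eqv (Φ (eqv.symm x)) = x
    rw [p8 (eqv.symm x) fun h => hx (by
      rwa [mem_preimage, eqv.apply_symm_apply] at h), eqv.apply_symm_apply]
  · obtain ⟨L, l1, l2⟩ := p9 (eqv.symm '' Z) (hZ.image eqv.symm.continuous) (by
      rintro _ ⟨z, hz, rfl⟩
      exact back (hZΛ hz))
    classical
    refine ⟨L.image fun ℓ => ℓ.comp eqv.symm.toLinearEquiv.toLinearMap.toAffineMap, ?_, ?_⟩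
    · intro ℓ hℓ
      obtain ⟨ℓ', hℓ', rfl⟩ := Finset.mem_image.1 hℓ
      intro h0
      refine l1 ℓ' hℓ' (LinearMap.ext fun v => ?_)
      have := LinearMap.congr_fun h0 (eqv v)
      simpa using this
    · rintro z ⟨hz, hzZ⟩
      obtain ⟨ℓ, hℓ, h0⟩ := l2 (eqv.symm z) ⟨hz, z, hzZ, rfl⟩
      exact ⟨_, Finset.mem_image_of_mem _ hℓ, h0⟩
  · obtain ⟨Ψ, hΨ⟩ := p10 s hs
    refine ⟨((eqvCon hΛ).symm.trans Ψ).trans (eqvCon hΛ), fun x => ?_⟩
    show eqv (Ψ.toFun (eqv.symm x)) = _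
    rw [hΨ, map_add, map_smul, map_smul, eqv.apply_symm_apply]
  · obtain ⟨β, hβ⟩ := p11 (eqv.symm '' O) (hO.image _ eqv.symm.continuous.continuousOn) (by
      rintro _ ⟨z, hz, rfl⟩
      exact ⟨back (hOΛ hz).1, (hOΛ hz).2⟩)
    refine ⟨eqv β, fun z hz => ?_⟩
    obtain ⟨g1, g2, g3⟩ := hβ _ ⟨z, hz, rfl⟩
    have e : eqv β + K⁻¹ • (z - eqv β) = eqv (β + K⁻¹ • (eqv.symm z - β)) := by
      rw [map_add, map_smul, map_sub, eqv.apply_symm_apply]
    refine ⟨e ▸ g1, ?_, ?_⟩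
    · show eqv (Φ (eqv.symm _)) = z
      rw [e, eqv.symm_apply_apply, g2, eqv.apply_symm_apply]
    · have g4 := norm_eqv_le (eqv.symm z - β)
      rw [map_sub, eqv.apply_symm_apply] at g4
      have g5 := mul_le_mul_of_nonneg_left (dcb z) hθ.le
      have g6 := mul_nonneg hθ.le (dcn z)
      linarith

end P073.Pw
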