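import Vale.Agent.P073Y.Pw.Sk

/-!
# Local structure of a power diagram
-/

open Set Metric Topology Filter

namespace P073.Pw

theorem pw2 : PW2 := by
  intro F _ _ _ Λ S τ θ h z hz
  have hd : 0 < dc Λ z :=
    (h.isOpen.isClosed_compl.notMem_iff_infDist_pos h.ne).1 fun h1 => h1 hz
  set d := dc Λ z with hdd
  obtain ⟨β₀, hβ₀, hτ₀, hn₀⟩ := h.dense z hz
  have hθd : θ * d ≤ d / 4 := by nlinarith [h.le]
  have hθ0 : 0 ≤ θ * d := (mul_pos h.pos hd).le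
  have hZ : closedBall z (d / 2) ⊆ Λ :=
    (closedBall_subset_ball (half_lt_self hd)).trans ball_infDist_compl_subset
  have hT : (S ∩ closedBall z (d / 2)).Finite := h.fin _ (isCompact_closedBall _ _) hZ
  have hmem : ∀ β ∈ S, ‖z - β‖ ≤ d / 2 → β ∈ S ∩ closedBall z (d / 2) := fun β hβ hn =>
    ⟨hβ, by rwa [mem_closedBall, dist_comm, dist_eq_norm]⟩
  have hsq : ∀ β w : F, ‖w - β‖ ^ 2 ≤ pw τ β w := fun β w => le_add_of_nonneg_right (h.nonneg β)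
  have h0 : ∀ w : F, pw τ β₀ w = ‖w - β₀‖ ^ 2 := fun w => by rw [pw, hτ₀, add_zero]
  have h0z : pw τ β₀ z ≤ (θ * d) ^ 2 := by
    rw [h0]; exact pow_le_pow_left₀ (norm_nonneg _) hn₀ 2
  have hout : ∀ β ∈ S, β ∉ S ∩ closedBall z (d / 2) → (θ * d) ^ 2 + d ^ 2 / 8 ≤ pw τ β z := by
    intro β hβ hn
    have h1 : d / 2 ≤ ‖z - β‖ := le_of_not_ge fun h1 => hn (hmem β hβ h1)
    have h2 : (d / 2) ^ 2 ≤ ‖z - β‖ ^ 2 := pow_le_pow_left₀ (by positivity) h1 2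
    have h3 : (θ * d) ^ 2 ≤ (d / 4) ^ 2 := pow_le_pow_left₀ hθ0 hθd 2
    nlinarith [hsq β z]
  obtain ⟨β₁, hβ₁, hmin⟩ := exists_min_image _ (fun β => pw τ β z) hT
    ⟨β₀, hmem β₀ hβ₀ (by linarith)⟩
  have h10 : pw τ β₁ z ≤ (θ * d) ^ 2 := (hmin β₀ (hmem β₀ hβ₀ (by linarith))).trans h0z
  have hact : β₁ ∈ act S τ z := by
    refine ⟨hβ₁.1, fun β hβ => ?_⟩
    by_cases hb : β ∈ S ∩ closedBall z (d / 2)
    · exact hmin β hb
    · nlinarith [hout β hβ hb]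
  have hbd : ∀ β ∈ act S τ z, pw τ β z ≤ (θ * d) ^ 2 ∧ ‖z - β‖ ≤ θ * d := fun β hβ =>
    ⟨(hβ.2 β₀ hβ₀).trans h0z,
      (sq_le_sq₀ (norm_nonneg _) hθ0).1 ((hsq β z).trans ((hβ.2 β₀ hβ₀).trans h0z))⟩
  have hsub : act S τ z ⊆ S ∩ closedBall z (d / 2) := fun β hβ =>
    hmem β hβ.1 (by linarith [(hbd β hβ).2])
  have hlt : ∀ β ∈ S, β ∉ act S τ z → pw τ β₁ z < pw τ β z := by
    intro β hβ hn
    by_contra hc
    exact hn ⟨hβ, fun β' hβ' => (not_lt.1 hc).trans (hact.2 β' hβ')⟩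
  have hfin : ((S ∩ closedBall z (d / 2)) \ act S τ z).Finite := hT.subset sdiff_subset
  refine ⟨⟨β₁, hact⟩, hT.subset hsub, hbd, ?_, ?_⟩
  · have hc : ∀ β : F, Continuous fun w => pw τ β w := fun β => by unfold pw; fun_prop
    have h1 : ∀ᶠ w in 𝓝 z, ∀ β ∈ (S ∩ closedBall z (d / 2)) \ act S τ z,
        pw τ β₁ w < pw τ β w :=
      (eventually_all_finite hfin).2 fun β hβ =>
        (hc β₁).continuousAt.eventually_lt (hc β).continuousAt (hlt β hβ.1.1 hβ.2)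
    filter_upwards [h1, closedBall_mem_nhds z (show 0 < d / 8 by positivity)] with w hw hw' β hβ
    rw [mem_closedBall, dist_eq_norm] at hw'
    have h2 : ‖w - β‖ ≤ ‖w - β₀‖ :=
      (sq_le_sq₀ (norm_nonneg _) (norm_nonneg _)).1
        ((hsq β w).trans ((hβ.2 β₀ hβ₀).trans_eq (h0 w)))
    have h3 : ‖w - β₀‖ ≤ ‖w - z‖ + ‖z - β₀‖ := norm_sub_le_norm_sub_add_norm_sub _ _ _
    have h4 : ‖z - β‖ ≤ ‖z - w‖ + ‖w - β‖ := norm_sub_le_norm_sub_add_norm_sub _ _ _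
    rw [norm_sub_rev z w] at h4
    by_contra hn
    exact absurd (hβ.2 β₁ hact.1) (not_le.2 (hw β ⟨hmem β hβ.1 (by linarith), hn⟩))
  · obtain ⟨ε, hε, he⟩ : ∃ ε : ℝ, 0 < ε ∧ ∀ β ∈ (S ∩ closedBall z (d / 2)) \ act S τ z,
        pw τ β₁ z + ε ≤ pw τ β z := by
      rcases ((S ∩ closedBall z (d / 2)) \ act S τ z).eq_empty_or_nonempty with e | hne
      · exact ⟨1, one_pos, fun β hβ => absurd (e ▸ hβ) (notMem_empty β)⟩
      · obtain ⟨β₂, hβ₂, hm⟩ := exists_min_image _ (fun β => pw τ β z) hfin hne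
        exact ⟨pw τ β₂ z - pw τ β₁ z, sub_pos.2 (hlt β₂ hβ₂.1.1 hβ₂.2),
          fun β hβ => by linarith [hm β hβ]⟩
    refine ⟨min ε (d ^ 2 / 8), lt_min hε (by positivity), fun β hβ β' hβ' hn => ?_⟩
    have h1 : pw τ β z ≤ pw τ β₁ z := hβ.2 β₁ hact.1
    by_cases hb : β' ∈ S ∩ closedBall z (d / 2)
    · linarith [he β' ⟨hb, hn⟩, min_le_left ε (d ^ 2 / 8)]
    · linarith [hout β' hβ' hb, min_le_right ε (d ^ 2 / 8)]

end P073.Pw
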