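import Vale.Agent.P073Y.Pw.Per

/-!
# The graph of the diagram is maximal monotone
-/

open Set Metric Topology Filter

namespace P073.Pw

variable {F : Type} [NormedAddCommGroup F] [InnerProductSpace ℝ F]

theorem inner_of_pw {z z' β β' : F} {ω ω' : ℝ} (h1 : ‖z - β‖ ^ 2 + ω ≤ ‖z - β'‖ ^ 2 + ω')
    (h2 : ‖z' - β'‖ ^ 2 + ω' ≤ ‖z' - β‖ ^ 2 + ω) : 0 ≤ inner ℝ (z - z') (β - β') := by
  simp only [norm_sub_sq_real] at h1 h2
  simp only [inner_sub_left, inner_sub_right]
  linarith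

theorem convex_half (u c : F) : Convex ℝ {q : F | 0 ≤ inner ℝ u (q - c)} := by
  intro x hx y hy a b ha hb hab
  have e : a • x + b • y - c = a • (x - c) + b • (y - c) := by
    have : c = (a + b) • c := by rw [hab, one_smul]
    conv_lhs => rw [this]
    module
  simp only [mem_ofPred_eq] at hx hy ⊢
  rw [e, inner_add_right, inner_smul_right, inner_smul_right]
  positivity

theorem convex_half' (u c : F) : Convex ℝ {q : F | 0 ≤ inner ℝ u (c - q)} := by
  have := convex_half (-u) c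
  refine (congrArg (Convex ℝ) ?_).mp this
  ext q
  simp only [mem_ofPred_eq]
  rw [inner_neg_left, ← inner_neg_right, neg_sub]

variable [FiniteDimensional ℝ F] {Λ S : Set F} {τ : F → ℝ} {θ : ℝ}

theorem pw_le_dc (h2 : PW2) (D : Diag Λ S τ θ) {z β : F} (hz : z ∈ Λ) (hβ : β ∈ act S τ z) :
    pw τ β z ≤ dc Λ z ^ 2 := by
  have h := ((h2 D z hz).2.2.1 β hβ).1
  have h0 := dc_nonneg Λ z
  have : θ * dc Λ z ≤ dc Λ z := by nlinarith [D.le]
  exact h.trans (pow_le_pow_left₀ (mul_nonneg D.pos.le h0) this 2)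

theorem mono_in_out (h2 : PW2) (D : Diag Λ S τ θ) {z z' q : F} (hz : z ∈ Λ) (hz' : z' ∉ Λ)
    (hq : q ∈ convexHull ℝ (act S τ z)) : 0 ≤ inner ℝ (z - z') (q - z') := by
  refine convexHull_min (fun β hβ => ?_) (convex_half (z - z') z') hq
  refine inner_of_pw (ω := τ β) (ω' := 0) ?_ ?_
  · have h := pw_le_dc h2 D hz hβ
    have h3 := infDist_le_dist_of_mem (x := z) (show z' ∈ Λᶜ from hz')
    rw [dist_eq_norm] at h3
    have := pow_le_pow_left₀ (dc_nonneg Λ z) h3 2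
    unfold pw at h
    linarith
  · have := D.nonneg β
    rw [sub_self, norm_zero]
    nlinarith [sq_nonneg ‖z' - β‖]

theorem gr_mono (h2 : PW2) (D : Diag Λ S τ θ) (z q z' q' : F) (h : Gr Λ S τ z q)
    (h' : Gr Λ S τ z' q') : 0 ≤ inner ℝ (z - z') (q - q') := by
  rcases h with ⟨hz, hq⟩ | ⟨hz, rfl⟩ <;> rcases h' with ⟨hz', hq'⟩ | ⟨hz', rfl⟩
  · refine convexHull_min (fun β hβ => ?_) (convex_half (z - z') q') hq
    refine convexHull_min (fun β' hβ' => ?_) (convex_half' (z - z') β) hq'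
    exact inner_of_pw (hβ.2 β' hβ'.1) (hβ'.2 β hβ.1)
  · exact mono_in_out h2 D hz hz' hq
  · have := mono_in_out h2 D hz' hz hq'
    rwa [← neg_sub q z', ← neg_sub q q', inner_neg_neg] at this
  · exact real_inner_self_nonneg

/-- the least power distance -/
noncomputable def mm (Λ S : Set F) (τ : F → ℝ) (z : F) : ℝ :=
  sInf (insert (dc Λ z ^ 2) ((fun β => pw τ β z) '' S))

omit [InnerProductSpace ℝ F] [FiniteDimensional ℝ F] in
theorem mm_bdd (D : Diag Λ S τ θ) (z : F) :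
    (0:ℝ) ∈ lowerBounds (insert (dc Λ z ^ 2) ((fun β => pw τ β z) '' S)) := by
  rintro _ (rfl | ⟨β, -, rfl⟩)
  · positivity
  · have := D.nonneg β
    simp only [pw]
    positivity

omit [InnerProductSpace ℝ F] [FiniteDimensional ℝ F] in
theorem mm_nonneg (D : Diag Λ S τ θ) (z : F) : 0 ≤ mm Λ S τ z :=
  le_csInf (insert_nonempty _ _) (mm_bdd D z)

omit [InnerProductSpace ℝ F] [FiniteDimensional ℝ F] in
theorem mm_le (D : Diag Λ S τ θ) (z : F) : mm Λ S τ z ≤ dc Λ z ^ 2 :=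
  csInf_le ⟨0, mm_bdd D z⟩ (mem_insert _ _)

theorem mm_eq (h2 : PW2) (D : Diag Λ S τ θ) {z β : F} (hz : z ∈ Λ) (hβ : β ∈ act S τ z) :
    mm Λ S τ z = pw τ β z := by
  refine le_antisymm (csInf_le ⟨0, mm_bdd D z⟩ (mem_insert_of_mem _ ⟨β, hβ.1, rfl⟩))
    (le_csInf (insert_nonempty _ _) ?_)
  rintro _ (rfl | ⟨β', h, rfl⟩)
  · exact pw_le_dc h2 D hz hβ
  · exact hβ.2 β' h

/-- near a point of `Λ` the least power distance is attained at a site active at the point -/
theorem mm_near (h2 : PW2) (D : Diag Λ S τ θ) {z : F} (hz : z ∈ Λ) :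
    ∀ᶠ w in 𝓝 z, ∃ β ∈ act S τ z, mm Λ S τ w = pw τ β w ∧
      ∀ β' ∈ act S τ z, pw τ β w ≤ pw τ β' w := by
  filter_upwards [(h2 D z hz).2.2.2.1, D.isOpen.mem_nhds hz] with w h hw
  obtain ⟨β, hβ⟩ := (h2 D w hw).1
  exact ⟨β, h hβ, mm_eq h2 D hw hβ, fun β' h' => hβ.2 β' h'.1⟩

theorem continuous_mm (h2 : PW2) (D : Diag Λ S τ θ) : Continuous (mm Λ S τ) := by
  refine continuous_iff_continuousAt.2 fun z => ?_
  by_cases hz : z ∈ Λ
  · rw [ContinuousAt, Metric.tendsto_nhds]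
    intro ε hε
    have h1 : ∀ᶠ w in 𝓝 z, ∀ β ∈ act S τ z, dist (pw τ β w) (pw τ β z) < ε :=
      ((h2 D z hz).2.1.eventually_all).2 fun β _ =>
        Metric.tendsto_nhds.1 (continuous_pw τ β).continuousAt ε hε
    filter_upwards [h1, mm_near h2 D hz] with w h3 ⟨β, h4, h5, _⟩
    rw [h5, mm_eq h2 D hz h4]
    exact h3 β h4
  · have h0 : dc Λ z = 0 := infDist_zero_of_mem (show z ∈ Λᶜ from hz)
    have h1 : mm Λ S τ z = 0 := le_antisymm (by simpa [h0] using mm_le D z) (mm_nonneg D z)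
    rw [ContinuousAt, h1]
    refine squeeze_zero (mm_nonneg D) (mm_le D) ?_
    have hc : Continuous fun t => dc Λ t ^ 2 := (continuous_dc Λ).pow 2
    have := hc.tendsto z
    simpa [h0] using this

theorem gr_max (h2 : PW2) (D : Diag Λ S τ θ) (a b : ℝ) (y : F) (ha : 0 < a) (hb : 0 < b) :
    ∃ z q, Gr Λ S τ z q ∧ a • z + b • q = y := by
  have : ProperSpace F := FiniteDimensional.proper ℝ F
  let E : F → ℝ := fun w => (a + b) * ‖w‖ ^ 2 - b * mm Λ S τ w - 2 * inner ℝ y w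
  have hE : Continuous E := by
    have := continuous_mm h2 D
    fun_prop
  obtain ⟨b₀, hb₀⟩ := D.ne
  have low : ∀ w, a * ‖w‖ ^ 2 - 2 * (b * ‖b₀‖ + ‖y‖) * ‖w‖ - b * ‖b₀‖ ^ 2 ≤ E w := fun w => by
    have h3 := infDist_le_dist_of_mem (x := w) hb₀
    rw [dist_eq_norm] at h3
    have h4 := (mm_le D w).trans (pow_le_pow_left₀ (dc_nonneg Λ w) h3 2)
    rw [norm_sub_sq_real] at h4
    have h5 := real_inner_le_norm y w
    have h6 := neg_le_of_abs_le (abs_real_inner_le_norm w b₀)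
    have h7 := mul_le_mul_of_nonneg_left h4 hb.le
    have h8 := mul_le_mul_of_nonneg_left h6 hb.le
    simp only [E]
    nlinarith
  obtain ⟨z, hz⟩ := hE.exists_forall_le_of_isBounded 0 (by
    refine (isBounded_iff_forall_norm_le).2
      ⟨max 1 ((2 * (b * ‖b₀‖ + ‖y‖) + b * ‖b₀‖ ^ 2 + |E 0|) / a), fun w hw => ?_⟩
    by_contra hh
    rw [not_le, max_lt_iff, div_lt_iff₀ ha] at hh
    have h1 := (low w).trans (show E w ≤ E 0 from hw)
    have h3 : E 0 ≤ |E 0| := le_abs_self _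
    have h4 : 0 ≤ b * ‖b₀‖ ^ 2 + |E 0| := by positivity
    nlinarith [hh.1, hh.2])
  by_cases hzΛ : z ∈ Λ
  · refine ⟨z, b⁻¹ • (y - a • z), Or.inl ⟨hzΛ, ?_⟩, by
      rw [smul_smul, mul_inv_cancel₀ hb.ne', one_smul]; abel⟩
    set q := b⁻¹ • (y - a • z) with hq
    have hy : y = a • z + b • q := by
      rw [hq, smul_smul, mul_inv_cancel₀ hb.ne', one_smul]; abel
    by_contra hcon
    obtain ⟨f, u, h3, h4⟩ := geometric_hahn_banach_closed_point (convex_convexHull ℝ _)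
      ((h2 D z hzΛ).2.1.isCompact_convexHull ℝ).isClosed hcon
    set v := (InnerProductSpace.toDual ℝ F).symm f with hv
    have hf : ∀ x, inner ℝ v x = f x := fun x => InnerProductSpace.toDual_symm_apply
    have t0 : Tendsto (fun t : ℝ => z + t • v) (𝓝[>] 0) (𝓝 z) := by
      have : Continuous fun t : ℝ => z + t • v := by fun_prop
      simpa using (this.tendsto 0).mono_left nhdsWithin_le_nhds
    have t1 : ∀ᶠ t : ℝ in 𝓝[>] 0, t * (a * ‖v‖ ^ 2) < 2 * b * (f q - u) := by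
      have : Continuous fun t : ℝ => t * (a * ‖v‖ ^ 2) := by fun_prop
      refine ((this.tendsto 0).mono_left nhdsWithin_le_nhds).eventually_lt_const ?_
      rw [zero_mul]
      have := sub_pos.2 h4
      positivity
    obtain ⟨t, ⟨β, h5, h6, -⟩, h7, h8⟩ :=
      ((t0.eventually (mm_near h2 D hzΛ)).and (t1.and self_mem_nhdsWithin)).exists
    have h9 := hz (z + t • v)
    have h10 := h3 β (subset_convexHull ℝ _ h5)
    have ht : 0 < t := h8
    simp only [E] at h9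
    rw [h6, mm_eq h2 D hzΛ h5] at h9
    unfold pw at h9
    have e1 : ‖z + t • v‖ ^ 2 = ‖z‖ ^ 2 + 2 * t * f z + t ^ 2 * ‖v‖ ^ 2 := by
      rw [norm_add_sq_real, inner_smul_right, real_inner_comm, hf, norm_smul, mul_pow,
        Real.norm_eq_abs, sq_abs]
      ring
    have e2 : ‖z + t • v - β‖ ^ 2 = ‖z - β‖ ^ 2 + 2 * t * (f z - f β) + t ^ 2 * ‖v‖ ^ 2 := by
      rw [add_sub_right_comm, norm_add_sq_real, inner_smul_right, real_inner_comm, hf, norm_smul,
        mul_pow, Real.norm_eq_abs, sq_abs, map_sub]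
      ring
    have e3 : inner ℝ y (z + t • v) = inner ℝ y z + t * (a * f z + b * f q) := by
      rw [inner_add_right, inner_smul_right, real_inner_comm v y, hf]
      conv_lhs => rw [hy]
      rw [map_add, map_smul, map_smul, smul_eq_mul, smul_eq_mul, ← hy]
    rw [e1, e2, e3] at h9
    have h11 : 0 ≤ t * (t * (a * ‖v‖ ^ 2) - 2 * b * (f q - f β)) := by nlinarith
    have h12 : t * (a * ‖v‖ ^ 2) - 2 * b * (f q - f β) < 0 := by nlinarith
    nlinarith
  · refine ⟨z, z, Or.inr ⟨hzΛ, rfl⟩, ?_⟩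
    have h0 : dc Λ z = 0 := infDist_zero_of_mem (show z ∈ Λᶜ from hzΛ)
    have h1 : mm Λ S τ z = 0 := le_antisymm (by simpa [h0] using mm_le D z) (mm_nonneg D z)
    have hab : 0 < a + b := by linarith
    set w := (a + b)⁻¹ • y with hw
    have hy : y = (a + b) • w := by rw [hw, smul_smul, mul_inv_cancel₀ hab.ne', one_smul]
    have h3 := hz w
    have h4 := mul_nonneg hb.le (mm_nonneg D w)
    simp only [E] at h3
    rw [h1] at h3
    have e1 : inner ℝ y z = (a + b) * inner ℝ z w := by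
      conv_lhs => rw [hy]
      rw [inner_smul_left, real_inner_comm]; simp
    have e2 : inner ℝ y w = (a + b) * ‖w‖ ^ 2 := by
      conv_lhs => rw [hy]
      rw [inner_smul_left, real_inner_self_eq_norm_sq]; simp
    rw [e1, e2] at h3
    have h5 : ‖z - w‖ ^ 2 ≤ 0 := by
      rw [norm_sub_sq_real]
      refine le_of_mul_le_mul_left ?_ hab
      nlinarith
    have h6 : z = w := sub_eq_zero.1 (norm_eq_zero.1 (pow_eq_zero_iff two_ne_zero |>.1
      (le_antisymm h5 (sq_nonneg _))))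
    rw [hy, h6, add_smul]

theorem pw3_of (h2 : PW2) : PW3 := fun D => ⟨gr_mono h2 D, gr_max h2 D⟩

end P073.Pw
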