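import Vale.Agent.P073Y.Pw.Sk

/-!
# The resolvent of the power diagram
-/

open Set Metric Topology Filter

namespace P073.Pw

namespace Res

variable {F : Type} [NormedAddCommGroup F] [InnerProductSpace ℝ F] {Λ S : Set F} {τ : F → ℝ}

/-- the two components of the resolvent for the weights `a`, `b` -/
structure Rs (Λ S : Set F) (τ : F → ℝ) (a b : ℝ) (Z Q : F → F) : Prop where
  gr : ∀ y, Gr Λ S τ (Z y) (Q y)
  eq : ∀ y, a • Z y + b • Q y = y
  uniq : ∀ z q, Gr Λ S τ z q → Z (a • z + b • q) = z ∧ Q (a • z + b • q) = q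
  lip : ∀ y y', ‖Z y - Z y'‖ ≤ a⁻¹ * ‖y - y'‖
  cZ : Continuous Z
  cQ : Continuous Q
  out : ∀ y, y ∉ Λ → Z y = y ∧ Q y = y
  maps : MapsTo Z Λ Λ

theorem res {a b : ℝ} (ha : 0 < a) (hb : 0 < b) (hab : a + b = 1)
    (h1 : ∀ z q z' q', Gr Λ S τ z q → Gr Λ S τ z' q' → 0 ≤ inner ℝ (z - z') (q - q'))
    (h2 : ∀ y : F, ∃ z q, Gr Λ S τ z q ∧ a • z + b • q = y) : ∃ Z Q, Rs Λ S τ a b Z Q := by
  choose Z Q k1 k2 using h2
  have lip : ∀ z q z' q', Gr Λ S τ z q → Gr Λ S τ z' q' →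
      ‖z - z'‖ ≤ a⁻¹ * ‖a • z + b • q - (a • z' + b • q')‖ := fun z q z' q' g g' => by
    have e1 := real_inner_le_norm (z - z') (a • z + b • q - (a • z' + b • q'))
    have e2 : a • z + b • q - (a • z' + b • q') = a • (z - z') + b • (q - q') := by
      rw [smul_sub, smul_sub]
      abel
    rw [le_inv_mul_iff₀ ha]
    nth_rw 1 [e2] at e1
    rw [inner_add_right, inner_smul_right, inner_smul_right, real_inner_self_eq_norm_mul_norm] at e1
    rcases (norm_nonneg (z - z')).eq_or_lt with h | h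
    · rw [← h, mul_zero]
      exact norm_nonneg _
    · exact le_of_mul_le_mul_left (by linarith [mul_nonneg hb.le (h1 z q z' q' g g')]) h
  have k3 : ∀ y, Q y = b⁻¹ • (y - a • Z y) := fun y => by
    rw [eq_inv_smul_iff₀ hb.ne', eq_sub_iff_add_eq', k2]
  have k4 : ∀ z q, Gr Λ S τ z q → Z (a • z + b • q) = z ∧ Q (a • z + b • q) = q := fun z q g => by
    have e := lip _ _ z q (k1 (a • z + b • q)) g
    rw [k2, sub_self, norm_zero, mul_zero, norm_le_zero_iff, sub_eq_zero] at e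
    exact ⟨e, by rw [k3, e, add_sub_cancel_left, inv_smul_smul₀ hb.ne']⟩
  have k5 : ∀ y y', ‖Z y - Z y'‖ ≤ a⁻¹ * ‖y - y'‖ := fun y y' => by
    simpa only [k2] using lip _ _ _ _ (k1 y) (k1 y')
  have k6 : Continuous Z := (LipschitzWith.of_dist_le_mul (K := ⟨a⁻¹, by positivity⟩)
    fun y y' => by rw [dist_eq_norm, dist_eq_norm]; exact k5 y y').continuous
  have k7 : ∀ y : F, a • y + b • y = y := fun y => by rw [← add_smul, hab, one_smul]
  refine ⟨Z, Q, k1, k2, k4, k5, k6, ?_, fun y hy => ?_, fun y hy => ?_⟩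
  · rw [funext k3]
    fun_prop
  · simpa only [k7] using k4 y y (Or.inr ⟨hy, rfl⟩)
  · rcases k1 y with h | h
    · exact h.1
    · have e := k2 y
      rw [h.2, k7] at e
      exact e.symm ▸ hy

theorem act_seg {z₀ z β : F} (h₀ : β ∈ act S τ z₀) (h : β ∈ act S τ z) {t : ℝ}
    (ht : t ∈ Icc (0 : ℝ) 1) : β ∈ act S τ (z₀ + t • (z - z₀)) := by
  refine ⟨h.1, fun β' h' => ?_⟩
  have k1 := mul_le_mul_of_nonneg_left (h₀.2 β' h') (sub_nonneg.2 ht.2)
  have k2 := mul_le_mul_of_nonneg_left (h.2 β' h') ht.1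
  simp only [pw, norm_sub_sq_real, inner_add_left, inner_smul_left, inner_sub_left,
    conj_trivial] at k1 k2 ⊢
  linarith

theorem conical [FiniteDimensional ℝ F] (h2 : PW2) {θ a b : ℝ} (hD : Diag Λ S τ θ) {Z Q : F → F}
    (h : Rs Λ S τ a b Z Q) : ConicalOn Z Λ := fun y₀ hy => by
  have g : ∀ y ∈ Λ, Q y ∈ convexHull ℝ (act S τ (Z y)) := fun y hy =>
    ((h.gr y).resolve_right fun k => k.1 (h.maps hy)).2
  obtain ⟨-, k1, -, k2, -⟩ := h2 hD _ (h.maps hy)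
  obtain ⟨ρ, hρ, k3⟩ := Metric.isOpen_iff.1 hD.isOpen _ (h.maps hy)
  have k4 : ∀ᶠ q in 𝓝 (Q y₀), ∀ A ∈ {A | A ⊆ act S τ (Z y₀)},
      q ∈ convexHull ℝ A → Q y₀ ∈ convexHull ℝ A :=
    (eventually_all_finite k1.finite_subsets).2 fun A hA => by
      by_cases k : Q y₀ ∈ convexHull ℝ A
      · exact Eventually.of_forall fun _ _ => k
      · exact mem_of_superset (((k1.subset hA).isClosed_convexHull ℝ).isOpen_compl.mem_nhds k)
          fun _ k' k'' => (k' k'').elim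
  obtain ⟨r, hr, k5⟩ := exists_radius_of_nhdsWithin (X := Λ) (mem_nhdsWithin_of_mem_nhds
    (((h.cZ.tendsto y₀).eventually (k2.and (ball_mem_nhds _ hρ))).and
      ((h.cQ.tendsto y₀).eventually k4)))
  obtain ⟨r', hr', k6⟩ := conicalSetAt_of_mem_nhds (hD.isOpen.mem_nhds hy)
  refine ⟨min r r', lt_min hr hr', fun v hv hyv t ht =>
    ⟨k6 v (hv.trans (min_le_right _ _)) hyv t ht, ?_⟩⟩
  obtain ⟨⟨e1, e2⟩, e3⟩ := k5 v (hv.trans (min_le_left _ _)) hyv
  have e4 := (h.uniq _ _ (Or.inl ⟨k3 ((convex_ball _ _).add_smul_sub_mem (mem_ball_self hρ) e2 ht),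
    convexHull_mono (fun β hβ => act_seg (e1 hβ) hβ ht) ((convex_convexHull ℝ _).add_smul_sub_mem
      (e3 _ e1 (g _ hyv)) (g _ hyv) ht)⟩)).1
  rw [← e4]
  congr 1
  have e5 := h.eq y₀
  have e6 := h.eq (y₀ + v)
  linear_combination (norm := module) (t - 1) • e5 - t • e6

end Res

open Res in
theorem pw4_of (h2 : PW2) (h3 : PW3) : PW4 := by
  intro F _ _ _ Λ S τ θ K hD hK
  obtain ⟨h4, h5⟩ := h3 hD
  have a0 : 0 < K⁻¹ := by positivity
  have b0 : 0 < 1 - K⁻¹ := sub_pos.2 (inv_lt_one_of_one_lt₀ hK)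
  obtain ⟨Z, Q, h⟩ := res a0 b0 (add_sub_cancel _ _) h4 fun y => h5 _ _ y a0 b0
  have hc := conical h2 hD h
  refine ⟨Z, fun y => ⟨_, h.gr y, h.eq y⟩, fun z q g => (h.uniq z q g).1,
    fun y y' => by simpa only [inv_inv] using h.lip y y', fun y hy => (h.out y hy).1, h.maps, hc,
    fun s hs => ?_⟩
  have a1 : 0 < 1 - s + s * K⁻¹ := add_pos_of_nonneg_of_pos (sub_nonneg.2 hs.2) (mul_pos hs.1 a0)
  have b1 : 0 < s * (1 - K⁻¹) := mul_pos hs.1 b0
  obtain ⟨Z', Q', h'⟩ := res a1 b1 (by ring) h4 fun y => h5 _ _ y a1 b1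
  have e1 : ∀ x, (1 - s) • Z x + s • x = (1 - s + s * K⁻¹) • Z x + (s * (1 - K⁻¹)) • Q x :=
    fun x => by linear_combination (norm := module) -s • h.eq x
  have e2 : ∀ x, K⁻¹ • Z' ((1 - s) • Z x + s • x) + (1 - K⁻¹) • Q' ((1 - s) • Z x + s • x) = x :=
    fun x => by rw [e1, (h'.uniq _ _ (h.gr x)).1, (h'.uniq _ _ (h.gr x)).2, h.eq]
  have e3 : ∀ u, (1 - s) • Z (K⁻¹ • Z' u + (1 - K⁻¹) • Q' u) +
      s • (K⁻¹ • Z' u + (1 - K⁻¹) • Q' u) = u :=
    fun u => by rw [e1, (h.uniq _ _ (h'.gr u)).1, (h.uniq _ _ (h'.gr u)).2, h'.eq]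
  have c1 := h.cZ
  have c2 := h'.cZ
  have c3 := h'.cQ
  refine ⟨⟨fun x => (1 - s) • Z x + s • x, fun u => K⁻¹ • Z' u + (1 - K⁻¹) • Q' u,
    fun x hx => by_contra fun k => ?_, fun u hu => by_contra fun k => ?_, fun x _ => e2 x,
    fun u _ => e3 u, by fun_prop, by fun_prop,
    (hc.const_smul _).add ((conicalOn_id hc.conicalSet).const_smul _)⟩, fun _ => rfl⟩
  · have e := e2 x
    rw [(h'.out _ k).1, (h'.out _ k).2, ← add_smul, add_sub_cancel, one_smul] at e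
    exact k (e.symm ▸ hx)
  · have e := e3 u
    rw [(h.out _ k).1, ← add_smul, sub_add_cancel, one_smul] at e
    exact k (e.symm ▸ hu)

end P073.Pw
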