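import Vale.Agent.P073Y.Pw.Sk

/-!
# Power collapse: sites from the volume bound
-/

open Set Metric Topology Filter MeasureTheory
open scoped ENNReal NNReal Pointwise

namespace P073.Pw

/-- Euclidean space -/
abbrev F3 := EuclideanSpace ℝ (Fin 3)

/-- lattice points -/
noncomputable def lat (s : ℝ) (m : Fin 3 → ℤ) : F3 := WithLp.toLp 2 fun i => s * (m i : ℝ)

theorem lat_apply (s : ℝ) (m : Fin 3 → ℤ) (i : Fin 3) : lat s m i = s * (m i : ℝ) := rfl

theorem abs_coord_le (x : F3) (i : Fin 3) : |x i| ≤ ‖x‖ := by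
  have h := PiLp.norm_apply_le x i
  rwa [Real.norm_eq_abs] at h

theorem norm_le_of_coord {x : F3} {a : ℝ} (ha : 0 ≤ a) (h : ∀ i, |x i| ≤ a) : ‖x‖ ≤ 2 * a := by
  have h1 : ‖x‖ ^ 2 = x 0 ^ 2 + x 1 ^ 2 + x 2 ^ 2 := by
    rw [EuclideanSpace.real_norm_sq_eq, Fin.sum_univ_three]
  have h2 : ∀ i, x i ^ 2 ≤ a ^ 2 := fun i => by
    rw [← sq_abs]
    exact pow_le_pow_left₀ (abs_nonneg _) (h i) 2
  refine (abs_le_of_sq_le_sq' ?_ (by positivity)).2
  nlinarith [h2 0, h2 1, h2 2, sq_nonneg a]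

theorem lat_finite {s : ℝ} (hs : 0 < s) {Z : Set F3} (hZ : Bornology.IsBounded Z) :
    (range (lat s) ∩ Z).Finite := by
  obtain ⟨R, hR⟩ := hZ.exists_norm_le
  have hf : {m : Fin 3 → ℤ | ∀ i, m i ∈ Icc (-⌈R / s⌉) ⌈R / s⌉}.Finite :=
    Set.Finite.pi' fun _ => finite_Icc _ _
  refine (hf.image (lat s)).subset ?_
  rintro _ ⟨⟨m, rfl⟩, hm⟩
  refine ⟨m, fun i => ?_, rfl⟩
  have h1 := (abs_coord_le (lat s m) i).trans (hR _ hm)
  rw [lat_apply, abs_mul, abs_of_pos hs] at h1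
  have h2 : |(m i : ℝ)| ≤ R / s := by
    rw [le_div_iff₀ hs]; linarith
  have h3 : |(m i : ℝ)| ≤ (⌈R / s⌉ : ℤ) := h2.trans (Int.le_ceil _)
  have h4 : |m i| ≤ ⌈R / s⌉ := by exact_mod_cast h3
  exact abs_le.1 h4

theorem lat_sep {s : ℝ} (hs : 0 < s) {m m' : Fin 3 → ℤ} (h : m ≠ m') :
    s ≤ ‖lat s m - lat s m'‖ := by
  obtain ⟨i, hi⟩ := Function.ne_iff.1 h
  refine le_trans ?_ (abs_coord_le _ i)
  rw [PiLp.sub_apply, lat_apply, lat_apply, ← mul_sub, abs_mul, abs_of_pos hs]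
  have h1 : (1 : ℤ) ≤ |m i - m' i| := Int.one_le_abs (sub_ne_zero.2 hi)
  have h2 : (1 : ℝ) ≤ |(m i : ℝ) - m' i| := by exact_mod_cast h1
  nlinarith

theorem dc_cont (Λ : Set F3) : Continuous (dc Λ) := continuous_infDist_pt _

theorem mem_of_dc_pos {Λ : Set F3} {x : F3} (h : 0 < dc Λ x) : x ∈ Λ := by
  by_contra hx
  have h1 : dc Λ x = 0 := infDist_zero_of_mem (s := Λᶜ) hx
  linarith

theorem dc_pos_of_mem {Λ : Set F3} (ho : IsOpen Λ) (hb : Bornology.IsBounded Λ) {x : F3}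
    (hx : x ∈ Λ) : 0 < dc Λ x := by
  have hne : Λᶜ.Nonempty := by
    by_contra hc
    rw [not_nonempty_iff_eq_empty, compl_empty_iff] at hc
    rw [hc] at hb
    exact NormedSpace.unbounded_univ ℝ F3 hb
  exact (ho.isClosed_compl.notMem_iff_infDist_pos hne).1 fun h => h hx

theorem shell_compact {Λ U : Set F3} (hb : Bornology.IsBounded Λ) (hU : U ⊆ Λ)
    (hc : ClosedIn U Λ) {a b : ℝ} (ha : 0 < a) :
    IsCompact (U ∩ {y | a ≤ dc Λ y ∧ dc Λ y ≤ b}) := by
  refine isCompact_of_isClosed_isBounded ?_ (hb.subset (inter_subset_left.trans hU))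
  have h1 : IsClosed {y | a ≤ dc Λ y ∧ dc Λ y ≤ b} :=
    (isClosed_le continuous_const (dc_cont Λ)).inter (isClosed_le (dc_cont Λ) continuous_const)
  rw [← closure_subset_iff_isClosed]
  intro x hx
  have h2 : x ∈ {y | a ≤ dc Λ y ∧ dc Λ y ≤ b} :=
    h1.closure_subset (closure_mono inter_subset_right hx)
  exact ⟨hc x (mem_of_dc_pos (ha.trans_le h2.1)) (closure_mono inter_subset_left hx), h2⟩

theorem exists_thick {A : Set F3} (hA : IsCompact A) {v : ℝ≥0∞} (hv : volume A < v) {e : ℝ}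
    (he : 0 < e) : ∃ s : ℝ, 0 < s ∧ s ≤ e ∧ volume (cthickening s A) < v := by
  have h1 := (tendsto_measure_cthickening_of_isCompact (μ := volume) hA).eventually
    (gt_mem_nhds hv)
  have h2 : ∀ᶠ s in 𝓝[>] (0 : ℝ), volume (cthickening s A) < v :=
    h1.filter_mono nhdsWithin_le_nhds
  have h3 : ∀ᶠ s in 𝓝[>] (0 : ℝ), s ∈ Ioc 0 e := Ioc_mem_nhdsGT he
  obtain ⟨s, hs1, hs2⟩ := (h2.and h3).exists
  exact ⟨s, hs2.1, hs2.2, hs1⟩

theorem zpow_finite {a b : ℝ} (ha : 0 < a) : {k : ℤ | a ≤ (2 : ℝ) ^ k ∧ (2 : ℝ) ^ k ≤ b}.Finite := by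
  rcases le_or_gt b 0 with hb | hb
  · refine finite_empty.subset fun k hk => ?_
    have h1 : (0 : ℝ) < 2 ^ k := by positivity
    linarith [hk.2]
  obtain ⟨k1, h1⟩ := exists_mem_Ico_zpow ha (one_lt_two : (1 : ℝ) < 2)
  obtain ⟨k2, h2⟩ := exists_mem_Ico_zpow hb (one_lt_two : (1 : ℝ) < 2)
  refine (finite_Icc k1 (k2 + 1)).subset fun k hk => ⟨?_, ?_⟩
  · exact (zpow_le_zpow_iff_right₀ (one_lt_two : (1 : ℝ) < 2)).1 (h1.1.trans hk.1)
  · exact (zpow_le_zpow_iff_right₀ (one_lt_two : (1 : ℝ) < 2)).1 (hk.2.trans h2.2.le)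

/-- volume of a separated family of balls -/
theorem pack_volume {N : ℕ} {A : Set F3} {r s : ℝ} (hr : 0 < r) (hrs : r ≤ s)
    (y : (Fin 3 → Fin N) → F3) (hy : ∀ n, y n ∈ A)
    (hsep : ∀ n n', n ≠ n' → 2 * r ≤ ‖y n - y n'‖) :
    ENNReal.ofReal ((N * r) ^ 3 * (volume (ball (0 : F3) 1)).toReal) ≤
      volume (cthickening s A) := by
  have h1 : (⋃ n, ball (y n) r) ⊆ cthickening s A := by
    refine iUnion_subset fun n => ?_
    exact ((ball_subset_closedBall.trans (closedBall_subset_closedBall hrs)).trans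
      (closedBall_subset_cthickening (hy n) s))
  refine le_trans (le_of_eq ?_) (measure_mono h1)
  rw [measure_iUnion ?_ fun _ => measurableSet_ball]
  · have h2 : ∀ n, volume (ball (y n) r) = ENNReal.ofReal (r ^ 3) * volume (ball (0 : F3) 1) := by
      intro n
      rw [Measure.addHaar_ball volume _ hr.le]
      simp
    simp only [h2]
    rw [tsum_fintype, Finset.sum_const, Finset.card_univ, Fintype.card_fun, Fintype.card_fin,
      Fintype.card_fin, nsmul_eq_mul, ENNReal.ofReal_mul (by positivity),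
      ENNReal.ofReal_toReal measure_ball_lt_top.ne, mul_pow, ENNReal.ofReal_mul (by positivity),
      ← mul_assoc]
    congr 2
    rw [← Nat.cast_pow, ENNReal.ofReal_natCast]
  · intro n n' h
    refine ball_disjoint_ball ?_
    rw [dist_eq_norm]
    linarith [hsep n n' h]

theorem pw5 : PW5 := by
  classical
  set w : ℝ := (volume (ball (0 : F3) 1)).toReal with hw
  have hw0 : 0 < w :=
    ENNReal.toReal_pos (measure_ball_pos volume _ one_pos).ne' measure_ball_lt_top.ne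
  refine ⟨w / 512, by positivity, fun Λ U κ θ ho hb hU hc hκ hκ1 hθ hθ1 hvol => ?_⟩
  have hs : ∀ k : ℤ, ∃ s : ℝ, 0 < s ∧ s ≤ θ * 2 ^ k / 4 ∧
      volume (cthickening s (U ∩ {y | (2 : ℝ) ^ k / 6 ≤ dc Λ y ∧ dc Λ y ≤ 48 * (2 ^ k / 6)})) <
        ENNReal.ofReal (w / 512 * (κ * θ * 2 ^ k) ^ 3) := by
    intro k
    have ht : (0 : ℝ) < 2 ^ k := by positivity
    refine exists_thick (shell_compact hb hU hc (by positivity)) ?_ (by positivity)
    refine (hvol _ (by positivity)).trans_lt ?_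
    rw [ENNReal.ofReal_lt_ofReal_iff (by positivity)]
    refine mul_lt_mul_of_pos_left ?_ (by positivity)
    refine pow_lt_pow_left₀ ?_ (by positivity) three_ne_zero
    refine mul_lt_mul_of_pos_left (by linarith) (by positivity)
  choose s hs0 hs1 hs2 using hs
  refine ⟨⋃ k : ℤ, range (lat (s k)) ∩ {y | (2 : ℝ) ^ k / 2 ≤ dc Λ y ∧ dc Λ y ≤ 4 * 2 ^ k},
    ?_, ?_, ?_⟩
  · refine iUnion_subset fun k x hx => mem_of_dc_pos (lt_of_lt_of_le ?_ hx.2.1)
    positivity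
  · intro Z hZ hZΛ
    rcases Z.eq_empty_or_nonempty with rfl | hne
    · simp
    obtain ⟨a, ha, hmin⟩ := hZ.exists_isMinOn hne (dc_cont Λ).continuousOn
    obtain ⟨b, -, hmax⟩ := hZ.exists_isMaxOn hne (dc_cont Λ).continuousOn
    have ha0 : 0 < dc Λ a := dc_pos_of_mem ho hb (hZΛ ha)
    have hf := zpow_finite (a := dc Λ a / 4) (b := 2 * dc Λ b) (by positivity)
    refine (hf.biUnion fun k _ => lat_finite (hs0 k) hZ.isBounded).subset ?_
    rintro x ⟨hx, hxZ⟩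
    obtain ⟨k, hk1, hk2⟩ := mem_iUnion.1 hx
    have h1 : dc Λ a ≤ dc Λ x := hmin hxZ
    have h2 : dc Λ x ≤ dc Λ b := hmax hxZ
    exact mem_biUnion (show k ∈ {k : ℤ | _} from ⟨by linarith [hk2.2], by linarith [hk2.1]⟩)
      ⟨hk1, hxZ⟩
  · intro z hz
    have hz0 : 0 < dc Λ z := dc_pos_of_mem ho hb hz
    obtain ⟨k, hk1, hk2⟩ := exists_mem_Ico_zpow hz0 (one_lt_two : (1 : ℝ) < 2)
    rw [zpow_add_one₀ two_ne_zero] at hk2
    set t : ℝ := 2 ^ k with ht
    have ht0 : 0 < t := by positivity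
    have hσ0 := hs0 k
    have hσ1 := hs1 k
    have hσ2 := hs2 k
    set σ : ℝ := s k with hσ
    rw [← ht] at hσ1 hσ2
    set N : ℕ := ⌊θ * t / (2 * σ)⌋₊ with hN
    have hN1 : (N : ℝ) * σ ≤ θ * t / 2 := by
      have h1 : (N : ℝ) ≤ θ * t / (2 * σ) := Nat.floor_le (by positivity)
      rw [le_div_iff₀ (by positivity)] at h1
      linarith
    have hN2 : θ * t / 4 ≤ (N : ℝ) * σ := by
      have h1 : θ * t / (2 * σ) < N + 1 := Nat.lt_floor_add_one _
      rw [div_lt_iff₀ (by positivity)] at h1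
      linarith
    set m : (Fin 3 → Fin N) → Fin 3 → ℤ := fun n i => ⌊z i / σ⌋ + ((n i : ℕ) : ℤ) with hm
    have hminj : ∀ n n', n ≠ n' → m n ≠ m n' := by
      intro n n' h he
      refine h (funext fun i => Fin.ext ?_)
      have h1 := congrFun he i
      simp only [hm, add_right_inj, Nat.cast_inj] at h1
      exact h1
    have hnear : ∀ n, ‖z - lat σ (m n)‖ ≤ θ * t := by
      intro n
      refine (norm_le_of_coord (a := N * σ) (by positivity) fun i => ?_).trans (by linarith)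
      rw [PiLp.sub_apply, lat_apply]
      have h1 : (⌊z i / σ⌋ : ℝ) ≤ z i / σ := Int.floor_le _
      have h2 : z i / σ < ⌊z i / σ⌋ + 1 := Int.lt_floor_add_one _
      rw [le_div_iff₀ hσ0] at h1
      rw [div_lt_iff₀ hσ0] at h2
      have h3 : ((n i : ℕ) : ℝ) + 1 ≤ N := by exact_mod_cast (n i).2
      have h4 : (0 : ℝ) ≤ (n i : ℕ) := Nat.cast_nonneg _
      have h5 : (m n i : ℝ) = ⌊z i / σ⌋ + ((n i : ℕ) : ℝ) := by simp [hm]
      rw [h5, abs_le]
      constructor <;> nlinarith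
    refine ⟨Finset.univ.image fun n => lat σ (m n), ?_, ?_⟩
    · intro β hβ
      obtain ⟨n, -, rfl⟩ := Finset.mem_image.1 hβ
      have h1 := hnear n
      have h2 : dc Λ z ≤ dc Λ (lat σ (m n)) + dist z (lat σ (m n)) := infDist_le_infDist_add_dist
      have h3 : dc Λ (lat σ (m n)) ≤ dc Λ z + dist (lat σ (m n)) z := infDist_le_infDist_add_dist
      rw [dist_comm] at h3
      rw [dist_eq_norm] at h2 h3
      have h4 : θ * t ≤ t / 4 := by nlinarith
      refine ⟨mem_iUnion.2 ⟨k, ⟨_, rfl⟩, ?_, ?_⟩, h1.trans ?_⟩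
      · rw [← ht]; linarith
      · rw [← ht]; linarith
      · exact mul_le_mul_of_nonneg_left hk1 hθ.le
    · rintro ⟨y, hy1, hy2⟩
      have hmem : ∀ n, lat σ (m n) ∈ Finset.univ.image fun n => lat σ (m n) := fun n =>
        Finset.mem_image.2 ⟨n, Finset.mem_univ _, rfl⟩
      have h1 := pack_volume (A := U ∩ {y | t / 6 ≤ dc Λ y ∧ dc Λ y ≤ 48 * (t / 6)})
        (r := κ * σ / 2) (s := σ) (by positivity) (by nlinarith) (fun n => y (lat σ (m n)))
        (fun n => ?_) (fun n n' h => ?_)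
      · have h2 := h1.trans_lt hσ2
        rw [ENNReal.ofReal_lt_ofReal_iff (by positivity), ← hw] at h2
        have h3 : κ * θ * t / 8 ≤ N * (κ * σ / 2) := by nlinarith
        have h4 : (κ * θ * t / 8) ^ 3 ≤ (N * (κ * σ / 2)) ^ 3 :=
          pow_le_pow_left₀ (by positivity) h3 3
        have h5 := mul_le_mul_of_nonneg_right h4 hw0.le
        have h6 : (κ * θ * t / 8) ^ 3 * w = w / 512 * (κ * θ * t) ^ 3 := by ring
        linarith
      · obtain ⟨h2, h3, h4⟩ := hy1 _ (hmem n)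
        exact ⟨h2, by linarith, by linarith⟩
      · have h2 := hy2 _ (hmem n) _ (hmem n')
        have h3 := mul_le_mul_of_nonneg_left (lat_sep hσ0 (hminj n n' h)) hκ.le
        linarith

end P073.Pw
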