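import Vale.Agent.P073Y.Pw.Per
import Vale.Agent.P073Y.Pw.Loc
import Vale.Agent.P073Y.Pw.Mon
import Vale.Agent.P073Y.Pw.Res
import Vale.Agent.P073Y.Pw.Sites
import Vale.Agent.P073Y.Pw.Col
import Vale.Agent.P073Y.Pw.Cube
import Vale.Agent.P073Y.Pw.Fin

/-!
# Power collapse: assembly
-/

namespace P073.Pw

theorem pw3 : PW3 := pw3_of pw2

theorem pw4 : PW4 := pw4_of pw2 pw3

theorem pw6 : PW6 := pw6_of pw2 pw4

/-- the power collapse -/
theorem power : POWER := power_of pw1 pw5 pw6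

end P073.Pw
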