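import Vale.Agent.P073Y.Pw.Sk

/-!
# Least admissible weights
-/

open Set Metric Topology Filter

namespace P073.Pw

variable {F : Type} [NormedAddCommGroup F]

theorem dc_nonneg (Λ : Set F) (x : F) : 0 ≤ dc Λ x := infDist_nonneg

theorem dc_le_add (Λ : Set F) (x y : F) : dc Λ x ≤ dc Λ y + ‖x - y‖ := by
  have := infDist_le_infDist_add_dist (x := x) (y := y) (s := Λᶜ)
  rwa [dist_eq_norm] at this

theorem dc_pos {Λ : Set F} (ho : IsOpen Λ) (hn : Λᶜ.Nonempty) {x : F} (hx : x ∈ Λ) :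
    0 < dc Λ x :=
  (ho.isClosed_compl.notMem_iff_infDist_pos hn).1 (fun h => h hx)

theorem mem_of_lt_dc {Λ : Set F} {x y : F} (h : ‖x - y‖ < dc Λ x) : y ∈ Λ := by
  by_contra hy
  have := infDist_le_dist_of_mem (x := x) (show y ∈ Λᶜ from hy)
  rw [dist_eq_norm] at this
  exact absurd h (not_lt.2 this)

theorem continuous_dc (Λ : Set F) : Continuous (dc Λ) := continuous_infDist_pt _

theorem continuous_pw (τ : F → ℝ) (β : F) : Continuous (pw τ β) := by
  unfold pw; fun_prop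

variable [InnerProductSpace ℝ F]

/-- large constant weights are admissible -/
theorem exists_adm {Λ S U : Set F} {K : ℝ} (hb : Bornology.IsBounded Λ) (hn : Λᶜ.Nonempty)
    (hS : S ⊆ Λ) (hU : U ⊆ Λ) : ∃ τ : F → ℝ, (∀ β, 0 ≤ τ β) ∧ Adm Λ S U K τ := by
  obtain ⟨R, hR⟩ := hb.exists_norm_le
  obtain ⟨b, hb⟩ := hn
  refine ⟨fun _ => (R + |K| * (R + R) + ‖b‖) ^ 2, fun _ => sq_nonneg _, fun β hβ y hy ε hε => ?_⟩
  left
  have h1 : dc Λ (β + K • (y - β)) ≤ R + |K| * (R + R) + ‖b‖ := by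
    have h2 := infDist_le_dist_of_mem (x := β + K • (y - β)) hb
    rw [dist_eq_norm] at h2
    have h3 : ‖β + K • (y - β) - b‖ ≤ ‖β‖ + ‖K • (y - β)‖ + ‖b‖ :=
      (norm_sub_le _ _).trans (by gcongr; exact norm_add_le _ _)
    have h4 : ‖K • (y - β)‖ ≤ |K| * (R + R) := by
      rw [norm_smul, Real.norm_eq_abs]
      gcongr
      exact (norm_sub_le _ _).trans (add_le_add (hR y (hU hy)) (hR β (hS hβ)))
    have := hR β (hS hβ)
    unfold dc
    linarith
  have h5 := pow_le_pow_left₀ (dc_nonneg Λ _) h1 2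
  unfold pw
  nlinarith [sq_nonneg ‖β + K • (y - β) - β‖]

/-- the least admissible weights -/
theorem exists_least {Λ S U : Set F} {K : ℝ}
    (h0 : ∃ τ : F → ℝ, (∀ β, 0 ≤ τ β) ∧ Adm Λ S U K τ) :
    ∃ τ : F → ℝ, (∀ β, 0 ≤ τ β) ∧ Adm Λ S U K τ ∧
      ∀ τ' : F → ℝ, (∀ β, 0 ≤ τ' β) → Adm Λ S U K τ' → ∀ β, τ β ≤ τ' β := by
  let A : Set (F → ℝ) := {τ | (∀ β, 0 ≤ τ β) ∧ Adm Λ S U K τ}
  have hne : ∀ β, ((fun τ : F → ℝ => τ β) '' A).Nonempty := fun β => Nonempty.image _ h0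
  have hbd : ∀ β, BddBelow ((fun τ : F → ℝ => τ β) '' A) := fun β =>
    ⟨0, by rintro _ ⟨τ, hτ, rfl⟩; exact hτ.1 β⟩
  have hle : ∀ τ' ∈ A, ∀ β, sInf ((fun τ : F → ℝ => τ β) '' A) ≤ τ' β := fun τ' h β =>
    csInf_le (hbd β) ⟨τ', h, rfl⟩
  refine ⟨fun β => sInf ((fun τ : F → ℝ => τ β) '' A), fun β => ?_, fun β hβ y hy ε hε => ?_,
    fun τ' h1 h2 β => hle τ' ⟨h1, h2⟩ β⟩
  · exact le_csInf (hne β) (by rintro _ ⟨τ, hτ, rfl⟩; exact hτ.1 β)
  · obtain ⟨_, ⟨τ, hτ, rfl⟩, hlt⟩ := exists_lt_of_csInf_lt (hne β)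
      (lt_add_of_pos_right (sInf ((fun τ : F → ℝ => τ β) '' A)) (half_pos hε))
    rcases hτ.2 β hβ y hy (ε / 2) (half_pos hε) with h | ⟨β', h1, h2, h3⟩
    · left
      unfold pw at h ⊢
      simp only at hlt
      linarith
    · right
      refine ⟨β', h1, h2, ?_⟩
      have := hle τ hτ β'
      unfold pw at h3 ⊢
      simp only at hlt
      linarith

variable [FiniteDimensional ℝ F]

/-- a moved site touches `U` -/
theorem touch {Λ S U : Set F} {K : ℝ} {τ : F → ℝ} (hb : Bornology.IsBounded Λ) (hU : U ⊆ Λ)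
    (hc : ClosedIn U Λ) (hK : 1 < K) (h0 : ∀ β, 0 ≤ τ β) (ha : Adm Λ S U K τ)
    (hmin : ∀ τ' : F → ℝ, (∀ β, 0 ≤ τ' β) → Adm Λ S U K τ' → ∀ β, τ β ≤ τ' β)
    {β : F} (hβ : 0 < τ β) : ∃ y ∈ U,
      pw τ β (β + K • (y - β)) ≤ dc Λ (β + K • (y - β)) ^ 2 ∧
      ∀ β' ∈ S, β' ≠ β → pw τ β (β + K • (y - β)) ≤ pw τ β' (β + K • (y - β)) := by
  classical
  have : ProperSpace F := FiniteDimensional.proper ℝ F
  let A : ℝ → Set F := fun η => {y | y ∈ closure U ∧
    pw τ β (β + K • (y - β)) - η ≤ dc Λ (β + K • (y - β)) ^ 2 ∧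
    ∀ β' ∈ S, β' ≠ β → pw τ β (β + K • (y - β)) - η ≤ pw τ β' (β + K • (y - β))}
  have hz : Continuous fun y : F => β + K • (y - β) := by fun_prop
  have hcl : ∀ η, IsClosed (A η) := fun η => by
    refine isClosed_closure.inter (IsClosed.inter ?_ ?_)
    · exact isClosed_le (((continuous_pw τ β).comp hz).sub continuous_const)
        (((continuous_dc Λ).comp hz).pow 2)
    · have : IsClosed (⋂ β' ∈ S, ⋂ (_ : β' ≠ β), {y : F | pw τ β (β + K • (y - β)) - η ≤
          pw τ β' (β + K • (y - β))}) :=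
        isClosed_iInter fun β' => isClosed_iInter fun _ => isClosed_iInter fun _ =>
          isClosed_le (((continuous_pw τ β).comp hz).sub continuous_const)
            ((continuous_pw τ β').comp hz)
      refine (congrArg IsClosed ?_).mp this
      ext y
      simp only [mem_iInter]
      rfl
  have hne : ∀ η, 0 < η → (A η).Nonempty := fun η hη => by
    have hm : 0 < min η (τ β) := lt_min hη hβ
    by_contra hA
    have h1 : ∀ γ, 0 ≤ Function.update τ β (τ β - min η (τ β)) γ := fun γ => by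
      by_cases h : γ = β
      · subst h; simp
      · simp [Function.update_of_ne h, h0 γ]
    have h2 : ∀ γ z, pw (Function.update τ β (τ β - min η (τ β))) γ z ≤ pw τ γ z := fun γ z => by
      unfold pw
      by_cases h : γ = β
      · subst h; simp [hm.le]
      · simp [Function.update_of_ne h]
    have h3 : Adm Λ S U K (Function.update τ β (τ β - min η (τ β))) := by
      intro γ hγ y hy ε hε
      by_cases h : γ = β
      · subst h
        by_contra hh
        push Not at hh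
        refine hA ⟨y, subset_closure hy, ?_, fun β' h4 h5 => ?_⟩
        · have := hh.1
          unfold pw at this ⊢
          rw [Function.update_self] at this
          linarith [min_le_left η (τ γ)]
        · have := hh.2 β' h4 h5
          unfold pw at this ⊢
          rw [Function.update_self, Function.update_of_ne h5] at this
          linarith [min_le_left η (τ γ)]
      · have h6 : ∀ z, pw (Function.update τ β (τ β - min η (τ β))) γ z = pw τ γ z := fun z => by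
          unfold pw; rw [Function.update_of_ne h]
        rw [h6]
        rcases ha γ hγ y hy ε hε with h7 | ⟨β', h7, h8, h9⟩
        · exact Or.inl h7
        · exact Or.inr ⟨β', h7, h8, (h2 β' _).trans_lt h9⟩
    have := hmin _ h1 h3 β
    rw [Function.update_self] at this
    linarith
  have hmono : ∀ η η', η ≤ η' → A η ⊆ A η' := fun η η' h y hy =>
    ⟨hy.1, by linarith [hy.2.1], fun β' h1 h2 => by linarith [hy.2.2 β' h1 h2]⟩
  have hcp : IsCompact (closure U) := (hb.subset hU).isCompact_closure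
  obtain ⟨y, hy⟩ := IsCompact.nonempty_iInter_of_sequence_nonempty_isCompact_isClosed
    (fun n : ℕ => A (1 / ((n:ℝ) + 1)))
    (fun n => hmono _ _ (by
      apply one_div_le_one_div_of_le (by positivity); push_cast; linarith))
    (fun n => hne _ (by positivity)) (hcp.of_isClosed_subset (hcl _) fun y hy => hy.1)
    (fun n => hcl _)
  rw [mem_iInter] at hy
  have lim : ∀ a b : ℝ, (∀ n : ℕ, a - 1 / ((n:ℝ) + 1) ≤ b) → a ≤ b := fun a b h => by
    by_contra hab
    obtain ⟨n, hn⟩ := exists_nat_one_div_lt (sub_pos.2 (not_le.1 hab))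
    linarith [h n]
  have h1 := lim _ _ fun n => (hy n).2.1
  refine ⟨y, hc y ?_ (hy 0).1, h1, fun β' h2 h3 => lim _ _ fun n => (hy n).2.2 β' h2 h3⟩
  refine mem_of_lt_dc (x := β + K • (y - β)) ?_
  have h4 : ‖β + K • (y - β) - β‖ < dc Λ (β + K • (y - β)) := by
    refine lt_of_pow_lt_pow_left₀ 2 (dc_nonneg _ _) ?_
    unfold pw at h1
    linarith
  refine lt_of_le_of_lt ?_ h4
  have e1 : β + K • (y - β) - y = (K - 1) • (y - β) := by module
  have e2 : β + K • (y - β) - β = K • (y - β) := by module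
  rw [e1, e2, norm_smul, norm_smul, Real.norm_of_nonneg (by linarith),
    Real.norm_of_nonneg (by linarith)]
  nlinarith [norm_nonneg (y - β)]

omit [FiniteDimensional ℝ F] in
/-- touching points of two sites are far apart -/
theorem sep {K : ℝ} (hK : 1 < K) {τ : F → ℝ} {β β' y y' : F}
    (h1 : pw τ β (β + K • (y - β)) ≤ pw τ β' (β + K • (y - β)))
    (h2 : pw τ β' (β' + K • (y' - β')) ≤ pw τ β (β' + K • (y' - β'))) :
    (1 - K⁻¹) * ‖β - β'‖ ≤ ‖y - y'‖ := by
  set z := β + K • (y - β) with hz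
  set z' := β' + K • (y' - β') with hz'
  have hK0 : 0 < K := by linarith
  have h3 : 0 ≤ inner ℝ (z - z') (β - β') := by
    unfold pw at h1 h2
    simp only [norm_sub_sq_real] at h1 h2
    simp only [inner_sub_left, inner_sub_right]
    linarith
  have e : z - z' = K • (y - y') - (K - 1) • (β - β') := by rw [hz, hz']; module
  rw [e, inner_sub_left, inner_smul_left, inner_smul_left, real_inner_self_eq_norm_sq] at h3
  simp only [conj_trivial] at h3
  have h4 := real_inner_le_norm (y - y') (β - β')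
  rcases eq_or_lt_of_le (norm_nonneg (β - β')) with h5 | h5
  · rw [← h5, mul_zero]; exact norm_nonneg _
  · have h6 : (K - 1) * ‖β - β'‖ ≤ K * ‖y - y'‖ := by
      refine le_of_mul_le_mul_right ?_ h5
      nlinarith
    have e2 : 1 - K⁻¹ = (K - 1) / K := by field_simp
    rw [e2, div_mul_eq_mul_div, div_le_iff₀ hK0]
    linarith

theorem pw1 : PW1 := by
  intro F _ _ _ Λ S U K θ ho hb hn hS hU hc hK hK2 hθ hθ4 hP
  obtain ⟨τ, h0, ha, hmin⟩ := exists_least (exists_adm (K := K) hb hn hS hU)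
  refine ⟨τ, h0, ha, ?_⟩
  by_contra hV
  push Not at hV
  let V : Set F := {z | z ∈ Λ ∧ ∀ β ∈ S, τ β = 0 → θ * dc Λ z < ‖z - β‖}
  have hVne : (dc Λ '' V).Nonempty := by
    obtain ⟨z, h1, h2⟩ := hV
    exact ⟨_, z, ⟨h1, h2⟩, rfl⟩
  have hVbd : BddAbove (dc Λ '' V) := by
    obtain ⟨R, hR⟩ := hb.exists_norm_le
    obtain ⟨b, hb⟩ := hn
    refine ⟨R + ‖b‖, ?_⟩
    rintro _ ⟨z, hz, rfl⟩
    have h2 := infDist_le_dist_of_mem (x := z) hb
    rw [dist_eq_norm] at h2
    exact h2.trans ((norm_sub_le _ _).trans (by linarith [hR z hz.1]))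
  have hD : 0 < sSup (dc Λ '' V) := by
    obtain ⟨_, z, hz, rfl⟩ := hVne
    exact (dc_pos ho hn hz.1).trans_le (le_csSup hVbd ⟨z, hz, rfl⟩)
  obtain ⟨_, ⟨z₀, hz₀, rfl⟩, hlt⟩ := exists_lt_of_lt_csSup hVne (half_lt_self hD)
  obtain ⟨T, hT, hno⟩ := hP z₀ hz₀.1
  have hpos : ∀ β ∈ T, 0 < τ β := fun β hβ =>
    lt_of_le_of_ne (h0 β) fun h => absurd (hT β hβ).2 (not_le.2 (hz₀.2 β (hT β hβ).1 h.symm))
  have hex : ∀ β, ∃ y, β ∈ T → y ∈ U ∧
      pw τ β (β + K • (y - β)) ≤ dc Λ (β + K • (y - β)) ^ 2 ∧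
      ∀ β' ∈ S, β' ≠ β → pw τ β (β + K • (y - β)) ≤ pw τ β' (β + K • (y - β)) := fun β => by
    by_cases hβ : β ∈ T
    · obtain ⟨y, h1, h2⟩ := touch hb hU hc hK h0 ha hmin (hpos β hβ)
      exact ⟨y, fun _ => ⟨h1, h2⟩⟩
    · exact ⟨β, fun h => absurd h hβ⟩
  choose y hy using hex
  have hd0 := dc_pos ho hn hz₀.1
  refine hno ⟨y, fun β hβ => ?_, fun β hβ β' hβ' => ?_⟩
  · obtain ⟨h1, h2, h3⟩ := hy β hβ
    set z := β + K • (y β - β) with hz
    have hβS := (hT β hβ).1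
    have hβd := (hT β hβ).2
    have hτ := hpos β hβ
    have a1 : ‖z - β‖ < dc Λ z := by
      refine lt_of_pow_lt_pow_left₀ 2 (dc_nonneg _ _) ?_
      unfold pw at h2
      linarith
    have hzΛ : z ∈ Λ := mem_of_lt_dc (x := z) (by
      rw [sub_self, norm_zero]; exact (norm_nonneg _).trans_lt a1)
    have a2 : dc Λ β ≤ dc Λ z₀ + ‖z₀ - β‖ := by
      rw [norm_sub_rev]; exact dc_le_add Λ β z₀
    have a3 : dc Λ z₀ ≤ dc Λ β + ‖z₀ - β‖ := dc_le_add Λ z₀ β
    have a4 : dc Λ z ≤ dc Λ β + ‖z - β‖ := dc_le_add Λ z β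
    have a5 : dc Λ β ≤ dc Λ z + ‖z - β‖ := by
      rw [norm_sub_rev]; exact dc_le_add Λ β z
    have a6 : θ * dc Λ z₀ ≤ dc Λ z₀ / 4 := by nlinarith
    have a7 : dc Λ z ≤ 2 * dc Λ z₀ := by
      by_cases hzV : z ∈ V
      · linarith [le_csSup hVbd ⟨z, hzV, rfl⟩]
      · have : ∃ β' ∈ S, τ β' = 0 ∧ ‖z - β'‖ ≤ θ * dc Λ z := by
          by_contra hh
          push Not at hh
          exact hzV ⟨hzΛ, hh⟩
        obtain ⟨β', b1, b2, b3⟩ := this
        have b4 := h3 β' b1 (fun h => by rw [h] at b2; linarith)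
        have b5 : ‖z - β‖ ≤ ‖z - β'‖ := by
          refine le_of_pow_le_pow_left₀ two_ne_zero (norm_nonneg _) ?_
          unfold pw at b4
          linarith
        have b6 : θ * dc Λ z ≤ dc Λ z / 4 := by nlinarith [dc_nonneg Λ z]
        linarith
    have e2 : z - β = K • (y β - β) := by rw [hz]; module
    have e1 : z - y β = (K - 1) • (y β - β) := by rw [hz]; module
    have n2 : ‖z - β‖ = K * ‖y β - β‖ := by
      rw [e2, norm_smul, Real.norm_of_nonneg (by linarith)]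
    have n1 : ‖z - y β‖ = (K - 1) * ‖y β - β‖ := by
      rw [e1, norm_smul, Real.norm_of_nonneg (by linarith)]
    have c1 : dc Λ z ≤ dc Λ (y β) + ‖z - y β‖ := dc_le_add Λ z (y β)
    have c2 : dc Λ (y β) ≤ dc Λ β + ‖y β - β‖ := dc_le_add Λ (y β) β
    have c3 : ‖y β - β‖ ≤ ‖z - β‖ := by rw [n2]; nlinarith [norm_nonneg (y β - β)]
    have c4 : 2 * ‖z - y β‖ ≤ ‖z - β‖ := by rw [n1, n2]; nlinarith [norm_nonneg (y β - β)]
    exact ⟨h1, by linarith, by linarith⟩
  · by_cases h : β = β'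
    · subst h; simp
    · exact sep hK ((hy β hβ).2.2 β' (hT β' hβ').1 (Ne.symm h))
        ((hy β' hβ').2.2 β (hT β hβ).1 h)

end P073.Pw
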