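import Vale.Agent.P073Z.Defs

/-!
# Power collapse and the cube trick: statements
-/

open Set Metric Topology Filter MeasureTheory
open scoped ENNReal NNReal Pointwise

namespace P073.Pw

/-- Euclidean length of a vector of `E3` -/
noncomputable def eu (v : E3) : ℝ := Real.sqrt (∑ i, v i ^ 2)

/-- distance to the complement -/
noncomputable def dc {T : Type} [PseudoMetricSpace T] (Λ : Set T) (x : T) : ℝ := infDist x Λᶜ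

/-! ### exported statements -/

/-- power collapse: a closed set `U` of small volume in every shell is pushed into a locally
finite union `P` of plane pieces by a `K`-Lipschitz limit of PL homeomorphisms; off `P` the map is
inverted by homotheties with values outside `U` -/
def POWER : Prop := ∃ c : ℝ, 0 < c ∧ ∀ (Λ U : Set E3) (K θ : ℝ), IsOpen Λ →
  Bornology.IsBounded Λ → U ⊆ Λ → ClosedIn U Λ → 1 < K → K ≤ 2 → 0 < θ → θ ≤ 1 / 4 →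
  (∀ t : ℝ, 0 < t → volume (U ∩ {y | t ≤ dc Λ y ∧ dc Λ y ≤ 256 * t}) ≤
    ENNReal.ofReal (c * ((K - 1) * θ * t) ^ 3)) →
  ∃ (P : Set E3) (Φ₀ : E3 → E3), P ⊆ Λ ∧ ClosedIn P Λ ∧ PLOn Φ₀ Λ ∧ MapsTo Φ₀ Λ Λ ∧
    MapsTo Φ₀ U P ∧ (∀ x y, eu (Φ₀ x - Φ₀ y) ≤ K * eu (x - y)) ∧
    (∀ x ∈ Λ, ‖Φ₀ x - x‖ ≤ θ * dc Λ x) ∧ (∀ x, x ∉ Λ → Φ₀ x = x) ∧
    (∀ Z : Set E3, IsCompact Z → Z ⊆ Λ → ∃ L : Finset (E3 →ᵃ[ℝ] ℝ), (∀ ℓ ∈ L, ℓ.linear ≠ 0) ∧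
      ∀ z ∈ P ∩ Z, ∃ ℓ ∈ L, ℓ z = 0) ∧
    (∀ s ∈ Ioc (0:ℝ) 1, ∃ Φ : ConHomeo Λ Λ, ∀ x, Φ.toFun x = (1 - s) • Φ₀ x + s • x) ∧
    ∀ O : Set E3, IsPreconnected O → O ⊆ Λ \ P → ∃ β : E3, ∀ z ∈ O,
      β + K⁻¹ • (z - β) ∈ Λ \ U ∧ Φ₀ (β + K⁻¹ • (z - β)) = z ∧ ‖z - β‖ ≤ θ * dc Λ z

/-- holes for the homeomorphisms: on the half ball the inverse is a homothety into `Λ \ U` -/
def HOLE : Prop := ∀ (Λ U : Set E3) (Φ₀ : E3 → E3) (Φ : ConHomeo Λ Λ) (K s D r : ℝ) (c β : E3),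
  1 < K → s ∈ Ioc (0:ℝ) 1 → (∀ x, Φ.toFun x = (1 - s) • Φ₀ x + s • x) → 0 ≤ D → 0 < r →
  2 * K * s * D ≤ r → (∀ z ∈ closedBall c r,
    β + K⁻¹ • (z - β) ∈ Λ \ U ∧ Φ₀ (β + K⁻¹ • (z - β)) = z ∧ ‖z - β‖ ≤ D) →
  ∀ y ∈ closedBall c (r / 2), y ∈ Λ ∧ Φ.invFun y = β + ((1 - s) * K + s)⁻¹ • (y - β) ∧
    Φ.invFun y ∈ Λ \ U

/-- cube trick: in a cube near finitely many planes there is a small ball off all planes, whose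
blow up region lies in a set `Y e` that shrinks to the empty set -/
def CUBE : Prop := ∀ L : Finset (E3 →ᵃ[ℝ] ℝ), (∀ ℓ ∈ L, ℓ.linear ≠ 0) →
  ∃ (a : ℝ) (Y : ℝ → Set E3), 0 < a ∧ a ≤ 1 / 8 ∧ Monotone Y ∧ (∀ e, MeasurableSet (Y e)) ∧
    (∀ y, ∃ e, 0 < e ∧ y ∉ Y e) ∧ ∀ (x : E3) (e : ℝ), 0 < e →
      (∃ ℓ ∈ L, ∃ z ∈ closedBall x (2 * e), ℓ z = 0) →
      ∃ c ∈ closedBall x (e / 2), closedBall c (e / 8) ⊆ Y e ∧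
        ∀ ℓ ∈ L, ∀ z ∈ closedBall c (a * e), ℓ z ≠ 0

/-! ### the Euclidean core -/

section
variable {F : Type} [NormedAddCommGroup F]

/-- power distance -/
def pw (τ : F → ℝ) (β z : F) : ℝ := ‖z - β‖ ^ 2 + τ β

/-- active sites at `z` -/
def act (S : Set F) (τ : F → ℝ) (z : F) : Set F := {β ∈ S | ∀ β' ∈ S, pw τ β z ≤ pw τ β' z}

/-- the data of a diagram: locally finite sites, unmoved sites are dense -/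
structure Diag (Λ S : Set F) (τ : F → ℝ) (θ : ℝ) : Prop where
  isOpen : IsOpen Λ
  ne : Λᶜ.Nonempty
  sub : S ⊆ Λ
  fin : ∀ Z : Set F, IsCompact Z → Z ⊆ Λ → (S ∩ Z).Finite
  nonneg : ∀ β, 0 ≤ τ β
  pos : 0 < θ
  le : θ ≤ 1 / 4
  dense : ∀ z ∈ Λ, ∃ β ∈ S, τ β = 0 ∧ ‖z - β‖ ≤ θ * dc Λ z

variable [NormedSpace ℝ F]

/-- admissible weights -/
def Adm (Λ S U : Set F) (K : ℝ) (τ : F → ℝ) : Prop :=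
  ∀ β ∈ S, ∀ y ∈ U, ∀ ε : ℝ, 0 < ε →
    dc Λ (β + K • (y - β)) ^ 2 < pw τ β (β + K • (y - β)) + ε ∨
    ∃ β' ∈ S, β' ≠ β ∧ pw τ β' (β + K • (y - β)) < pw τ β (β + K • (y - β)) + ε

/-- no expanded copy of some finite set of sites near `z` fits into `U` -/
def Pack (Λ S U : Set F) (κ θ : ℝ) : Prop :=
  ∀ z ∈ Λ, ∃ T : Finset F, (∀ β ∈ T, β ∈ S ∧ ‖z - β‖ ≤ θ * dc Λ z) ∧
    ¬ ∃ y : F → F, (∀ β ∈ T, y β ∈ U ∧ dc Λ z / 6 ≤ dc Λ (y β) ∧ dc Λ (y β) ≤ 4 * dc Λ z) ∧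
      ∀ β ∈ T, ∀ β' ∈ T, κ * ‖β - β'‖ ≤ ‖y β - y β'‖

/-- the graph of the subdifferential (sites scaled by one) -/
def Gr (Λ S : Set F) (τ : F → ℝ) (z q : F) : Prop :=
  (z ∈ Λ ∧ q ∈ convexHull ℝ (act S τ z)) ∨ (z ∉ Λ ∧ q = z)

end

/-- Perron: least admissible weights leave a dense set of sites unmoved -/
def PW1 : Prop := ∀ {F : Type} [NormedAddCommGroup F] [InnerProductSpace ℝ F]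
  [FiniteDimensional ℝ F] (Λ S U : Set F) (K θ : ℝ), IsOpen Λ → Bornology.IsBounded Λ →
  Λᶜ.Nonempty → S ⊆ Λ → U ⊆ Λ → ClosedIn U Λ → 1 < K → K ≤ 2 → 0 < θ → θ ≤ 1 / 4 →
  Pack Λ S U (1 - K⁻¹) θ → ∃ τ : F → ℝ, (∀ β, 0 ≤ τ β) ∧ Adm Λ S U K τ ∧
    ∀ z ∈ Λ, ∃ β ∈ S, τ β = 0 ∧ ‖z - β‖ ≤ θ * dc Λ z

/-- local structure of the diagram -/
def PW2 : Prop := ∀ {F : Type} [NormedAddCommGroup F] [InnerProductSpace ℝ F]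
  [FiniteDimensional ℝ F] {Λ S : Set F} {τ : F → ℝ} {θ : ℝ}, Diag Λ S τ θ → ∀ z ∈ Λ,
  (act S τ z).Nonempty ∧ (act S τ z).Finite ∧
  (∀ β ∈ act S τ z, pw τ β z ≤ (θ * dc Λ z) ^ 2 ∧ ‖z - β‖ ≤ θ * dc Λ z) ∧
  (∀ᶠ w in 𝓝 z, act S τ w ⊆ act S τ z) ∧
  ∃ ε : ℝ, 0 < ε ∧ ∀ β ∈ act S τ z, ∀ β' ∈ S, β' ∉ act S τ z → pw τ β z + ε ≤ pw τ β' z

/-- monotonicity and maximality of the graph -/
def PW3 : Prop := ∀ {F : Type} [NormedAddCommGroup F] [InnerProductSpace ℝ F]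
  [FiniteDimensional ℝ F] {Λ S : Set F} {τ : F → ℝ} {θ : ℝ}, Diag Λ S τ θ →
  (∀ z q z' q', Gr Λ S τ z q → Gr Λ S τ z' q' → 0 ≤ inner ℝ (z - z') (q - q')) ∧
  ∀ (a b : ℝ) (y : F), 0 < a → 0 < b → ∃ z q, Gr Λ S τ z q ∧ a • z + b • q = y

/-- the resolvent -/
def PW4 : Prop := ∀ {F : Type} [NormedAddCommGroup F] [InnerProductSpace ℝ F]
  [FiniteDimensional ℝ F] {Λ S : Set F} {τ : F → ℝ} {θ K : ℝ}, Diag Λ S τ θ → 1 < K →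
  ∃ Z : F → F, (∀ y, ∃ q, Gr Λ S τ (Z y) q ∧ K⁻¹ • Z y + (1 - K⁻¹) • q = y) ∧
    (∀ z q, Gr Λ S τ z q → Z (K⁻¹ • z + (1 - K⁻¹) • q) = z) ∧
    (∀ y y', ‖Z y - Z y'‖ ≤ K * ‖y - y'‖) ∧ (∀ y, y ∉ Λ → Z y = y) ∧ MapsTo Z Λ Λ ∧
    ConicalOn Z Λ ∧
    ∀ s ∈ Ioc (0:ℝ) 1, ∃ Φ : ConHomeo Λ Λ, ∀ x, Φ.toFun x = (1 - s) • Z x + s • x

/-- sites from the volume bound -/
def PW5 : Prop := ∃ c : ℝ, 0 < c ∧ ∀ (Λ U : Set (EuclideanSpace ℝ (Fin 3))) (κ θ : ℝ), IsOpen Λ →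
  Bornology.IsBounded Λ → U ⊆ Λ → ClosedIn U Λ → 0 < κ → κ ≤ 1 → 0 < θ → θ ≤ 1 / 4 →
  (∀ t : ℝ, 0 < t → volume (U ∩ {y | t ≤ dc Λ y ∧ dc Λ y ≤ 48 * t}) ≤
    ENNReal.ofReal (c * (κ * θ * t) ^ 3)) →
  ∃ S ⊆ Λ, (∀ Z, IsCompact Z → Z ⊆ Λ → (S ∩ Z).Finite) ∧ Pack Λ S U κ θ

/-- the Euclidean form of the power collapse -/
def PW6 : Prop := ∀ {F : Type} [NormedAddCommGroup F] [InnerProductSpace ℝ F]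
  [FiniteDimensional ℝ F] {Λ S U : Set F} {τ : F → ℝ} {θ K : ℝ}, Diag Λ S τ θ → 1 < K →
  U ⊆ Λ → Adm Λ S U K τ →
  ∃ (P : Set F) (Φ₀ : F → F), P ⊆ Λ ∧ ClosedIn P Λ ∧ ConicalOn Φ₀ Λ ∧ MapsTo Φ₀ Λ Λ ∧
    MapsTo Φ₀ U P ∧ (∀ x y, ‖Φ₀ x - Φ₀ y‖ ≤ K * ‖x - y‖) ∧
    (∀ x ∈ Λ, ‖Φ₀ x - x‖ ≤ 2 * θ * dc Λ x) ∧ (∀ x, x ∉ Λ → Φ₀ x = x) ∧
    (∀ Z : Set F, IsCompact Z → Z ⊆ Λ → ∃ L : Finset (F →ᵃ[ℝ] ℝ), (∀ ℓ ∈ L, ℓ.linear ≠ 0) ∧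
      ∀ z ∈ P ∩ Z, ∃ ℓ ∈ L, ℓ z = 0) ∧
    (∀ s ∈ Ioc (0:ℝ) 1, ∃ Φ : ConHomeo Λ Λ, ∀ x, Φ.toFun x = (1 - s) • Φ₀ x + s • x) ∧
    ∀ O : Set F, IsPreconnected O → O ⊆ Λ \ P → ∃ β : F, ∀ z ∈ O,
      β + K⁻¹ • (z - β) ∈ Λ \ U ∧ Φ₀ (β + K⁻¹ • (z - β)) = z ∧ ‖z - β‖ ≤ θ * dc Λ z

end P073.Pw
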